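import Claimed.Agent.R316.Pack023
import Claimed.Agent.R316.Pack003

/-!
# S6-G1: chosen parametrisations, transitions, change of cotangent charts (leaf, ~800 lines)

The claimer owns this file: replace the `sorry`s IN PLACE, keep the statements (auxiliary lemmas: prefix `s6g_`; problems: msg helper126).
If `R316/CM/Trans.lean` (CM-1, helper55) is on main with the same facts, use it; nothing here waits for it.

NOTATION.  `τ = Function.invFunOn Ψ W ∘ Φ` (transition), `J = jac τ z`, `L = (J⁻¹)ᵀ`.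

RECIPES.
* `s6g_pspec`: unfold `pΦ`, `pU`, `co` (`dif_pos hx`), `(𝓜.cover x hx).choose_spec.choose_spec`, `Function.invFunOn_mem`, `Function.invFunOn_eq`.
* `s6g_trans`: `D = U ∩ Φ ⁻¹' (Ψ '' W)` is open (`Ψ '' W = carrier ∩ W₀`, `Φ` continuous on the open `U`, `Φ z' ∈ carrier`) and contains `z`; on `D`: `τ z' ∈ W`, `Ψ (τ z') = Φ z'` (`invFunOn_mem/eq`),
  `τ` is complex differentiable (`𝓜.compat`, `DifferentiableOn.differentiableAt` on the open `D`); `τ z = w` by `injOn` of `Ψ`.  Chain rule: `Φ =ᶠ Ψ ∘ τ` near `z`, `Ψ` real differentiable at `w` (smooth on the open `W`),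
  `τ` real differentiable (`DifferentiableAt.restrictScalars`, `fderiv ℝ τ z = (fderiv ℂ τ z).restrictScalars ℝ`).  `dΦ_z` injective ⟹ `fderiv ℂ τ z` injective ⟹ `J.mulVec` injective ⟹ `det J ≠ 0`
  (`Matrix.mulVec_injective_iff_isUnit` / `Matrix.isUnit_iff_isUnit_det`); `fderiv ℂ τ z v = toLp (J *ᵥ v)` by linearity on the basis `eb k` (`s6g_fderiv_eq_jac`).
* `s6g_pinv_comp`: `AᵀA` is injective (`⟪AᵀA v, v⟫ = ‖A v‖²`), hence invertible in finite dimension (`ContinuousLinearMap.inverse` of an equivalence: `LinearEquiv.ofInjectiveEndo`, `ContinuousLinearMap.inverse_equiv`).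
* `s6g_eq_cotParam`: decompose `a = A v + a'`, `a' ⟂ range A` (orthogonal projection on the finite dimensional range).
* `s6g_cotParam_trans`: both covectors kill `(range dΦ_z)^⟂ = (range dΨ_w)^⟂` and agree on `dΨ_w e`.  Shortest: show `IsCovecAt Ψ w ξ` for `ξ = (cotParam Φ (cJoin z ζ)).2` and compute `covComp Ψ w ξ = L ζ`, then `s6g_eq_cotParam`.
* `s6g_bmat_trans`: `IsHForm.compat`, `Matrix.mul_inv_rev`, `Matrix.transpose_mul`, `Matrix.conjTranspose_nonsing_inv`.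
-/

set_option autoImplicit false
set_option linter.unusedSectionVars false
open scoped ContDiff ComplexOrder Topology
open Filter

namespace Claimed.Agent.R316.S6

open Claimed.Agent.R316 Claimed.Agent.R316.B13 Matrix

/-! ### parametrisations (any complex manifold: used for `𝓜` and for `𝒴`) -/

section generic

variable {V : Type} [NormedAddCommGroup V] [NormedSpace ℝ V]
variable {ι : Type} [Fintype ι]
variable {𝓜 : CMfd V ι} {Φ : CE ι → V} {U : Set (CE ι)}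

theorem s6g_pspec {x : V} (hx : x ∈ 𝓜.carrier) :
    𝓜.IsHol (𝓜.pΦ x) (𝓜.pU x) ∧ 𝓜.co x ∈ 𝓜.pU x ∧ 𝓜.pΦ x (𝓜.co x) = x :=
  ⟨𝓜.isHol_pΦ hx, 𝓜.co_mem hx, 𝓜.pΦ_co hx⟩

theorem s6g_mem_carrier (hΦ : 𝓜.IsHol Φ U) {z : CE ι} (hz : z ∈ U) : Φ z ∈ 𝓜.carrier :=
  CMfd.mem_carrier hΦ hz

theorem s6g_continuousAt (hΦ : 𝓜.IsHol Φ U) {z : CE ι} (hz : z ∈ U) : ContinuousAt Φ z :=
  ((𝓜.isParam hΦ).differentiableAt hz).continuousAt

theorem s6g_eventually_mem_image (hΦ : 𝓜.IsHol Φ U) {z : CE ι} (hz : z ∈ U) :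
    ∀ᶠ x in 𝓝[𝓜.carrier] (Φ z), x ∈ Φ '' U := by
  have h := (𝓜.isParam hΦ).eventually_mem_image hz (N := Set.univ) Filter.univ_mem
  simpa using h

theorem s6g_invFunOn_apply (hΦ : 𝓜.IsHol Φ U) {z : CE ι} (hz : z ∈ U) :
    Function.invFunOn Φ U (Φ z) = z :=
  (𝓜.isParam hΦ).leftInv hz

theorem s6g_tendsto_inv (hΦ : 𝓜.IsHol Φ U) {z : CE ι} (hz : z ∈ U) :
    Tendsto (Function.invFunOn Φ U) (𝓝[𝓜.carrier] (Φ z)) (𝓝 z) :=
  (𝓜.isParam hΦ).tendsto_invFunOn hz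

theorem s6g_scal_eq {F : (CE ι → V) → CE ι → ℝ} (hF : 𝓜.Invariant F) (hΦ : 𝓜.IsHol Φ U)
    {z : CE ι} (hz : z ∈ U) : 𝓜.scal F (Φ z) = F Φ z :=
  CMfd.scal_eq hF hΦ hz

/-- a space-time smooth function is continuous on `I × M`. -/
theorem s6g_smoothST_continuousOn {I : Set ℝ} {u : ℝ → V → ℝ} (hu : 𝓜.SmoothST I u) :
    ContinuousOn (fun p : ℝ × V => u p.1 p.2) (I ×ˢ 𝓜.carrier) :=
  hu.continuousOn

end generic

variable {V : Type} [NormedAddCommGroup V] [InnerProductSpace ℝ V] [FiniteDimensional ℝ V]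
variable {ι : Type} [Fintype ι] [DecidableEq ι]
variable {𝓜 : CMfd V ι} {𝒴 : CMfd (CotAmb V) (ι ⊕ ι)}
variable {Φ Ψ : CE ι → V} {U W : Set (CE ι)}

/-! ### transitions -/

theorem s6g_fderiv_eq_jac {τ : CE ι → CE ι} (z v : CE ι) :
    fderiv ℂ τ z v = WithLp.toLp 2 (jac τ z *ᵥ v) := by
  ext k
  exact (jac_mulVec τ v k).symm

theorem s6g_trans (hΦ : 𝓜.IsHol Φ U) (hΨ : 𝓜.IsHol Ψ W) {z w : CE ι} (hz : z ∈ U) (hw : w ∈ W)
    (h : Φ z = Ψ w) :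
    (Function.invFunOn Ψ W ∘ Φ) z = w ∧
    (∀ᶠ z' in 𝓝 z, z' ∈ U ∧ (Function.invFunOn Ψ W ∘ Φ) z' ∈ W ∧
      Ψ ((Function.invFunOn Ψ W ∘ Φ) z') = Φ z' ∧
      DifferentiableAt ℂ (Function.invFunOn Ψ W ∘ Φ) z') ∧
    (jac (Function.invFunOn Ψ W ∘ Φ) z).det ≠ 0 ∧
    ∀ v : CE ι, fderiv ℝ Φ z v = fderiv ℝ Ψ w (fderiv ℂ (Function.invFunOn Ψ W ∘ Φ) z v) := by
  have hzD : z ∈ U ∩ Φ ⁻¹' (Ψ '' W) := ⟨hz, w, hw, h.symm⟩
  have hτ : (Function.invFunOn Ψ W ∘ Φ) z = w := CMfd.trans_eq hΦ hΨ hw h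
  refine ⟨hτ, ?_, CMfd.det_jac_trans_ne_zero hΦ hΨ hzD, fun v => ?_⟩
  · filter_upwards [(CMfd.isOpen_overlap hΦ hΨ).mem_nhds hzD] with z' hz'
    exact ⟨hz'.1, CMfd.trans_mem hΦ hΨ hz', CMfd.trans_spec hΦ hΨ hz',
      CMfd.trans_differentiableAt hΦ hΨ hz'⟩
  · have h1 := CMfd.fderiv_eq_comp_trans hΦ hΨ hzD v
    rwa [hτ] at h1

/-! ### covectors -/

theorem s6g_pairL_apply (ζ : ι → ℂ) (v : CE ι) : pairL ζ v = ∑ k, ζ k * v k := by
  unfold pairL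
  rw [_root_.sum_apply]
  rfl

/-- the Gram operator of an injective map is invertible. -/
theorem s6g_gram_equiv {A : CE ι →L[ℝ] V} (hA : Function.Injective A) :
    ∃ e : CE ι ≃L[ℝ] CE ι,
      (e : CE ι →L[ℝ] CE ι) = (ContinuousLinearMap.adjoint A).comp A := by
  have hinj : Function.Injective
      (((ContinuousLinearMap.adjoint A).comp A : CE ι →L[ℝ] CE ι) : CE ι →ₗ[ℝ] CE ι) := by
    rw [← LinearMap.ker_eq_bot, LinearMap.ker_eq_bot']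
    intro v hv
    have hv' : ContinuousLinearMap.adjoint A (A v) = 0 := hv
    have h1 : inner ℝ (ContinuousLinearMap.adjoint A (A v)) v = ‖A v‖ ^ 2 := by
      rw [ContinuousLinearMap.adjoint_inner_left, real_inner_self_eq_norm_sq]
    rw [hv', inner_zero_left] at h1
    have h2 : A v = 0 := by
      have : ‖A v‖ = 0 := by
        have := h1.symm
        exact pow_eq_zero_iff (two_ne_zero) |>.1 this
      exact norm_eq_zero.1 this
    exact hA (by rw [h2, map_zero])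
  refine ⟨(LinearEquiv.ofInjectiveEndo _ hinj).toContinuousLinearEquiv, ?_⟩
  ext v : 1
  rfl

theorem s6g_pinv_comp {A : CE ι →L[ℝ] V} (hA : Function.Injective A) (v : CE ι) :
    pinv A (A v) = v := by
  obtain ⟨e, he⟩ := s6g_gram_equiv hA
  unfold pinv
  rw [← he, ContinuousLinearMap.inverse_equiv]
  have h1 : ContinuousLinearMap.adjoint A (A v) = e v := by
    have : (e : CE ι →L[ℝ] CE ι) v = ((ContinuousLinearMap.adjoint A).comp A) v := by rw [he]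
    exact this.symm
  show e.symm (ContinuousLinearMap.adjoint A (A v)) = v
  rw [h1, e.symm_apply_apply]

theorem s6g_adjoint_eq_zero {A : CE ι →L[ℝ] V} {a : V}
    (ha : ∀ v : CE ι, inner ℝ a (A v) = 0) : ContinuousLinearMap.adjoint A a = 0 := by
  have h1 : inner ℝ (ContinuousLinearMap.adjoint A a) (ContinuousLinearMap.adjoint A a) = 0 := by
    rw [ContinuousLinearMap.adjoint_inner_left]
    exact ha _
  exact inner_self_eq_zero.1 h1

theorem s6g_pinv_orth {A : CE ι →L[ℝ] V} {a : V} (ha : ∀ v : CE ι, inner ℝ a (A v) = 0) :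
    pinv A a = 0 := by
  unfold pinv
  rw [ContinuousLinearMap.comp_apply, s6g_adjoint_eq_zero ha, map_zero]

/-- the residual `a - A (A⁺ a)` is orthogonal to the range. -/
theorem s6g_pinv_resid {A : CE ι →L[ℝ] V} (hA : Function.Injective A) (a : V) (v : CE ι) :
    inner ℝ (a - A (pinv A a)) (A v) = 0 := by
  obtain ⟨e, he⟩ := s6g_gram_equiv hA
  have h1 : ContinuousLinearMap.adjoint A (A (pinv A a)) = ContinuousLinearMap.adjoint A a := by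
    have h2 : ContinuousLinearMap.adjoint A (A (pinv A a)) = e (pinv A a) := by
      have : (e : CE ι →L[ℝ] CE ι) (pinv A a) =
          ((ContinuousLinearMap.adjoint A).comp A) (pinv A a) := by rw [he]
      exact this.symm
    rw [h2]
    unfold pinv
    rw [← he, ContinuousLinearMap.inverse_equiv]
    show e (e.symm (ContinuousLinearMap.adjoint A a)) = _
    rw [e.apply_symm_apply]
  rw [← ContinuousLinearMap.adjoint_inner_left, map_sub, h1, sub_self, inner_zero_left]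

theorem s6g_pairL_eb (ζ : ι → ℂ) (k : ι) : pairL ζ (eb k) = ζ k := by
  rw [s6g_pairL_apply, Finset.sum_eq_single k]
  · simp [eb]
  · intro j _ hj
    simp [eb, hj]
  · intro h
    exact absurd (Finset.mem_univ k) h

theorem s6g_pairL_smul_vec (ζ : ι → ℂ) (c : ℂ) (v : CE ι) :
    pairL ζ (c • v) = c * pairL ζ v := by
  rw [s6g_pairL_apply, s6g_pairL_apply, Finset.mul_sum]
  refine Finset.sum_congr rfl fun k _ => ?_
  simp only [PiLp.smul_apply, smul_eq_mul]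
  ring

theorem s6g_cotParam_snd_apply (Φ : CE ι → V) (p : CE (ι ⊕ ι)) (a : V) :
    (cotParam Φ p).2 a = pairL (cFib p) (pinv (fderiv ℝ Φ (cBase p)) a) := rfl

theorem s6g_cotParam_snd_fderiv (hΦ : 𝓜.IsHol Φ U) {p : CE (ι ⊕ ι)} (hp : p ∈ cotDom U)
    (v : CE ι) : (cotParam Φ p).2 (fderiv ℝ Φ (cBase p) v) = pairL (cFib p) v := by
  rw [s6g_cotParam_snd_apply, s6g_pinv_comp ((𝓜.isParam hΦ).immersion _ hp)]

theorem s6g_covComp_cotParam (hΦ : 𝓜.IsHol Φ U) {p : CE (ι ⊕ ι)} (hp : p ∈ cotDom U) :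
    covComp Φ (cBase p) (cotParam Φ p).2 = cFib p := by
  funext k
  unfold covComp
  rw [s6g_cotParam_snd_fderiv hΦ hp, s6g_pairL_eb]

theorem s6g_isCovecAt_cotParam (hΦ : 𝓜.IsHol Φ U) {p : CE (ι ⊕ ι)} (hp : p ∈ cotDom U) :
    IsCovecAt Φ (cBase p) (cotParam Φ p).2 := by
  refine ⟨fun a ha => ?_, fun v => ?_⟩
  · rw [s6g_cotParam_snd_apply, s6g_pinv_orth ha, map_zero]
  · rw [s6g_cotParam_snd_fderiv hΦ hp, s6g_cotParam_snd_fderiv hΦ hp, s6g_pairL_smul_vec]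

/-- a covector is complex linear along the parametrisation. -/
theorem s6g_covec_apply {z : CE ι} {ξ : V →L[ℝ] ℂ} (hξ : IsCovecAt Φ z ξ) (v : CE ι) :
    ξ (fderiv ℝ Φ z v) = pairL (covComp Φ z ξ) v := by
  have hsm : ∀ (c : ℂ) (u : CE ι), ξ (fderiv ℝ Φ z (c • u)) = c * ξ (fderiv ℝ Φ z u) := by
    intro c u
    have e : c • u = c.re • u + c.im • (Complex.I • u) := by
      conv_lhs => rw [← Complex.re_add_im c]
      rw [add_smul, mul_smul, Complex.coe_smul, Complex.coe_smul]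
    rw [e, map_add, map_add, map_smul, map_smul, map_smul, map_smul, hξ.2]
    conv_rhs => rw [← Complex.re_add_im c]
    simp only [Complex.real_smul]
    ring
  conv_lhs => rw [CE_eq_sum_complex v]
  rw [map_sum, map_sum, s6g_pairL_apply]
  refine Finset.sum_congr rfl fun k _ => ?_
  rw [hsm, mul_comm]
  rfl

theorem s6g_eq_cotParam (hΦ : 𝓜.IsHol Φ U) {z : CE ι} (hz : z ∈ U) {ξ : V →L[ℝ] ℂ}
    (hξ : IsCovecAt Φ z ξ) : (Φ z, ξ) = cotParam Φ (cJoin z (WithLp.toLp 2 (covComp Φ z ξ))) := by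
  have hA := (𝓜.isParam hΦ).immersion z hz
  have hb : cBase (cJoin z (WithLp.toLp 2 (covComp Φ z ξ))) = z := cBase_cJoin _ _
  have hf : cFib (cJoin z (WithLp.toLp 2 (covComp Φ z ξ))) = covComp Φ z ξ := by
    funext j
    simp [cFib, cJoin]
  refine Prod.ext ?_ ?_
  · show Φ z = Φ (cBase _)
    rw [hb]
  · ext a
    rw [s6g_cotParam_snd_apply, hb, hf, ← s6g_covec_apply hξ]
    have h1 := hξ.1 (a - fderiv ℝ Φ z (pinv (fderiv ℝ Φ z) a)) (s6g_pinv_resid hA a)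
    rw [map_sub, sub_eq_zero] at h1
    exact h1

theorem s6g_cFib_cJoin (x ξ : CE ι) : cFib (cJoin x ξ) = ξ := by
  funext j
  simp [cFib, cJoin]

theorem s6g_cJoin_mem_cotDom {x : CE ι} (hx : x ∈ U) (ξ : CE ι) : cJoin x ξ ∈ cotDom U := by
  show cBase (cJoin x ξ) ∈ U
  rw [cBase_cJoin]
  exact hx

/-- every vector is `dτ` of something. -/
theorem s6g_fderiv_trans_surj {τ : CE ι → CE ι} {z : CE ι} (hdet : (jac τ z).det ≠ 0)
    (u : CE ι) : fderiv ℂ τ z (WithLp.toLp 2 ((jac τ z)⁻¹ *ᵥ u)) = u := by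
  rw [s6g_fderiv_eq_jac]
  show WithLp.toLp 2 (jac τ z *ᵥ ((jac τ z)⁻¹ *ᵥ (u : ι → ℂ))) = u
  rw [Matrix.mulVec_mulVec, Matrix.mul_nonsing_inv _ (isUnit_iff_ne_zero.2 hdet),
    Matrix.one_mulVec]

/-- **change of cotangent charts**: `ζ^Ψ = (J⁻¹)ᵀ ζ^Φ`. -/
theorem s6g_cotParam_trans (hΦ : 𝓜.IsHol Φ U) (hΨ : 𝓜.IsHol Ψ W) {z w : CE ι} (hz : z ∈ U)
    (hw : w ∈ W) (h : Φ z = Ψ w) (ζ : CE ι) :
    cotParam Φ (cJoin z ζ) =
      cotParam Ψ (cJoin w (WithLp.toLp 2 (((jac (Function.invFunOn Ψ W ∘ Φ) z)⁻¹)ᵀ *ᵥ ζ))) := by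
  obtain ⟨-, -, hdet, hchain⟩ := s6g_trans hΦ hΨ hz hw h
  have hp : cJoin z ζ ∈ cotDom U := s6g_cJoin_mem_cotDom hz ζ
  have hcov := s6g_isCovecAt_cotParam hΦ hp
  have hfd := s6g_cotParam_snd_fderiv hΦ hp
  rw [cBase_cJoin] at hcov hfd
  rw [s6g_cFib_cJoin] at hfd
  set ξ := (cotParam Φ (cJoin z ζ)).2 with hξ
  set τ := Function.invFunOn Ψ W ∘ Φ with hτ
  -- `dΨ_w u = dΦ_z (J⁻¹ u)`
  have hback : ∀ u : CE ι, fderiv ℝ Ψ w u =
      fderiv ℝ Φ z (WithLp.toLp 2 ((jac τ z)⁻¹ *ᵥ u)) := fun u => by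
    rw [hchain, s6g_fderiv_trans_surj hdet]
  have hcovΨ : IsCovecAt Ψ w ξ := by
    refine ⟨fun a ha => hcov.1 a fun v => ?_, fun u => ?_⟩
    · rw [hchain]
      exact ha _
    · rw [hback, hback]
      have e : (WithLp.toLp 2 ((jac τ z)⁻¹ *ᵥ ((Complex.I • u : CE ι) : ι → ℂ)) : CE ι) =
          Complex.I • (WithLp.toLp 2 ((jac τ z)⁻¹ *ᵥ (u : ι → ℂ)) : CE ι) := by
        show WithLp.toLp 2 ((jac τ z)⁻¹ *ᵥ (Complex.I • (u : ι → ℂ))) = _
        rw [Matrix.mulVec_smul]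
        rfl
      rw [e, hcov.2]
  have hcomp : covComp Ψ w ξ = ((jac τ z)⁻¹)ᵀ *ᵥ ζ := by
    funext k
    unfold covComp
    rw [hback, hfd, s6g_pairL_apply]
    simp only [Matrix.mulVec, dotProduct, Matrix.transpose_apply]
    refine Finset.sum_congr rfl fun j _ => ?_
    have e : ∑ l, (jac τ z)⁻¹ j l * (eb k : CE ι) l = (jac τ z)⁻¹ j k := by
      rw [Finset.sum_eq_single k]
      · simp [eb]
      · intro l _ hl
        simp [eb, hl]
      · intro hk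
        exact absurd (Finset.mem_univ k) hk
    rw [e, mul_comm]
  have h1 := s6g_eq_cotParam hΨ hw hcovΨ
  rw [hcomp] at h1
  rw [← h1]
  refine Prod.ext ?_ rfl
  show Φ (cBase (cJoin z ζ)) = Ψ w
  rw [cBase_cJoin, h]

/-- transformation of the cometric: `b^Φ = Lᴴ b^Ψ L`, `L = (J⁻¹)ᵀ`. -/
theorem s6g_bmat_trans {h : HFam V ι} (hh : IsMetric 𝓜 h) (hΦ : 𝓜.IsHol Φ U) (hΨ : 𝓜.IsHol Ψ W)
    {z w : CE ι} (hz : z ∈ U) (hw : w ∈ W) (heq : Φ z = Ψ w) :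
    bmat h Φ z = (((jac (Function.invFunOn Ψ W ∘ Φ) z)⁻¹)ᵀ)ᴴ * bmat h Ψ w *
      ((jac (Function.invFunOn Ψ W ∘ Φ) z)⁻¹)ᵀ := by
  have h1 := hh.compat hΦ hΨ z hz ⟨w, hw, heq.symm⟩
  have h2 : Function.invFunOn Ψ W (Φ z) = w := CMfd.trans_eq hΦ hΨ hw heq
  rw [h2] at h1
  unfold bmat
  rw [h1, Matrix.mul_inv_rev, Matrix.mul_inv_rev, Matrix.transpose_mul, Matrix.transpose_mul,
    ← Matrix.conjTranspose_nonsing_inv]
  rfl

theorem s6g_qf_conj (L b : Matrix ι ι ℂ) (ζ : ι → ℂ) : qf (Lᴴ * b * L) ζ = qf b (L *ᵥ ζ) :=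
  lv_qf_conjTranspose_mul_mul b L ζ

/-- **the dual norm in an arbitrary cotangent chart.** -/
theorem s6g_covNormSq_cotParam {h : HFam V ι} (hh : IsMetric 𝓜 h) (hΦ : 𝓜.IsHol Φ U)
    {p : CE (ι ⊕ ι)} (hp : p ∈ cotDom U) : covNormSq 𝓜 h (cotParam Φ p) = nloc h Φ p := by
  have hz : cBase p ∈ U := hp
  have hx : Φ (cBase p) ∈ 𝓜.carrier := s6g_mem_carrier hΦ hz
  obtain ⟨hΨ, hw, hΨw⟩ := s6g_pspec hx
  have h1 := s6g_cotParam_trans hΦ hΨ hz hw hΨw.symm (cFibE p)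
  rw [cJoin_eta] at h1
  have h2 := s6g_covComp_cotParam hΨ (s6g_cJoin_mem_cotDom hw (WithLp.toLp 2
    (((jac (Function.invFunOn (𝓜.pΦ (Φ (cBase p))) (𝓜.pU (Φ (cBase p))) ∘ Φ) (cBase p))⁻¹)ᵀ *ᵥ
      (cFibE p : ι → ℂ))))
  rw [← h1, cBase_cJoin, s6g_cFib_cJoin] at h2
  have h3 := s6g_bmat_trans hh hΦ hΨ hz hw hΨw.symm
  unfold covNormSq nloc
  have e : (cotParam Φ p).1 = Φ (cBase p) := rfl
  rw [e, h2, h3, s6g_qf_conj]
  rfl

theorem s6g_covNormSq_fscale (h : HFam V ι) (c : ℂ) (y : CotAmb V) :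
    covNormSq 𝓜 h (fscale c y) = ‖c‖ ^ 2 * covNormSq 𝓜 h y := by
  unfold covNormSq
  have e : covComp (𝓜.pΦ (fscale c y).1) (𝓜.co (fscale c y).1) (fscale c y).2 =
      c • covComp (𝓜.pΦ y.1) (𝓜.co y.1) y.2 := rfl
  rw [e, john_qf_smul_vec]
  rfl

theorem s6g_pairL_smul (c : ℂ) (ζ : ι → ℂ) : pairL (c • ζ) = c • pairL ζ := by
  ext v
  rw [_root_.smul_apply, s6g_pairL_apply, s6g_pairL_apply, smul_eq_mul, Finset.mul_sum]
  refine Finset.sum_congr rfl fun k _ => ?_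
  simp only [Pi.smul_apply, smul_eq_mul]
  ring

theorem s6g_cotParam_smul (Φ : CE ι → V) (x ξ : CE ι) (c : ℂ) :
    cotParam Φ (cJoin x (c • ξ)) = fscale c (cotParam Φ (cJoin x ξ)) := by
  unfold cotParam fscale
  simp only [cBase_cJoin, s6g_cFib_cJoin]
  refine Prod.ext rfl ?_
  show (pairL (c • (ξ : ι → ℂ))).comp _ = c • ((pairL (ξ : ι → ℂ)).comp _)
  rw [s6g_pairL_smul]
  rfl

/-! ### the cotangent bundle -/

theorem s6g_isOpen_cotDom (hU : IsOpen U) : IsOpen (cotDom U) :=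
  hU.preimage s6_continuous_cBase

theorem s6g_cotParam_mem (hY : IsCotangent 𝓜 𝒴) (hΦ : 𝓜.IsHol Φ U) {p : CE (ι ⊕ ι)}
    (hp : p ∈ cotDom U) : cotParam Φ p ∈ 𝒴.carrier :=
  s6g_mem_carrier (hY.isHol hΦ) hp

theorem s6g_continuousAt_cotParam (hY : IsCotangent 𝓜 𝒴) (hΦ : 𝓜.IsHol Φ U) {p : CE (ι ⊕ ι)}
    (hp : p ∈ cotDom U) : ContinuousAt (cotParam Φ) p :=
  s6g_continuousAt (hY.isHol hΦ) hp

theorem s6g_base_mem (hY : IsCotangent 𝓜 𝒴) {y : CotAmb V} (hy : y ∈ 𝒴.carrier) :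
    y.1 ∈ 𝓜.carrier := by
  rw [hY.carrier_eq] at hy
  exact hy.1

theorem s6g_exists_cotParam (hY : IsCotangent 𝓜 𝒴) {y : CotAmb V} (hy : y ∈ 𝒴.carrier)
    (hΦ : 𝓜.IsHol Φ U) {z : CE ι} (hz : z ∈ U) (hyz : y.1 = Φ z) :
    ∃ ζ : CE ι, y = cotParam Φ (cJoin z ζ) := by
  rw [hY.carrier_eq] at hy
  obtain ⟨hx, hcov⟩ := hy
  obtain ⟨hΨ, hw, hΨw⟩ := s6g_pspec hx
  have h1 := s6g_eq_cotParam hΨ hw hcov
  rw [hΨw, s6g_cotParam_trans hΨ hΦ hw hz (hΨw.trans hyz)] at h1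
  exact ⟨_, h1⟩

theorem s6g_fscale_mem (hY : IsCotangent 𝓜 𝒴) (c : ℂ) {y : CotAmb V} (hy : y ∈ 𝒴.carrier) :
    fscale c y ∈ 𝒴.carrier := by
  rw [hY.carrier_eq] at hy ⊢
  obtain ⟨hx, hcov⟩ := hy
  refine ⟨hx, fun a ha => ?_, fun v => ?_⟩
  · show c • y.2 a = 0
    rw [hcov.1 a ha, smul_zero]
  · show c • y.2 (fderiv ℝ (𝓜.pΦ y.1) (𝓜.co y.1) (Complex.I • v)) =
      Complex.I * (c • y.2 (fderiv ℝ (𝓜.pΦ y.1) (𝓜.co y.1) v))
    rw [hcov.2, smul_eq_mul, smul_eq_mul]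
    ring

end Claimed.Agent.R316.S6
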