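import Claimed.Agent.R316.S6.GTrans
import Claimed.Agent.R316.Pack023

/-!
# S6-G3: holomorphic discs in `Y` (leaf, ~800 lines)

The claimer owns this file: replace the `sorry`s IN PLACE, keep the statements (auxiliary lemmas: prefix `s6k_`; problems: msg helper126).  All statements of `GTrans`, `GDual`, `CW/` may be used.

RECIPES.
* `s6g_disc_local`: `D = ball 0 r ∩ f ⁻¹' (Ψ '' W)` is open (`Ψ '' W = carrier ∩ W₀` with `W₀` open, `f` continuous on the ball with values in the carrier), `DifferentiableOn.differentiableAt`, `Function.invFunOn_mem/eq`.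
* `s6g_isHolDisc_of_local`: continuity: `f = Ψ₀ ∘ F` near `ζ₀`.  For a parametrisation `(Ψ, W)` and `ζ₀` with `f ζ₀ ∈ Ψ '' W`: `invFunOn Ψ W ∘ f = (invFunOn Ψ W ∘ Ψ₀) ∘ F` near `ζ₀`;
  `𝓧.compat` on the OPEN set `W₀ ∩ Ψ₀ ⁻¹' (Ψ '' W) ∋ F ζ₀`.
* `s6g_disc_scale`: near `ζ₀` take `Φ = 𝓜.pΦ (f ζ₀).1` (`s6g_pspec`, `s6g_base_mem`, `s6g_exists_cotParam`), `F` from `s6g_disc_local` for `cotParam Φ`; `fscale c (cotParam Φ p) = cotParam Φ (cJoin (cBase p) (c • cFibE p))` (`s6g_cotParam_smul`, `cJoin_eta`);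
  `p ↦ cJoin (cBase p) (c • cFibE p)` is complex linear and preserves `cotDom U`.
* `s6g_laplacian_comp_hol`: `τ : CE (Fin 1) → CE κ`, `τ w = F (w 0)`; `qf_levi_eq_laplacian` for `u ∘ τ` at `z = toLp (fun _ => ζ₀)`, `v = eb 0`; `qf_levi_comp_hol`; `jac τ z *ᵥ eb 0 = deriv F ζ₀`; translation invariance of the Laplacian.
* `s6g_submean0`: `G = covNormSq 𝓜 g ∘ f` on `Ω = ball 0 r`.  Near `ζ₀`: `G = nloc g Φ ∘ F` (`s6g_covNormSq_cotParam`), so `G` is `C^∞` there (`s6g_contDiffOn_nloc`, `hol_contDiffAt_real`) with `Δ G = 4 qf (levi (nloc g Φ)) (F') ≥ 0` (`s6g_levi_nloc_posSemidef`).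
  `submean_of_laplacian_nonneg` (CW-2b); `cavg`/`Real.circleAverage` unfolds to `(2π)⁻¹ • ∫ θ in 0..2π, G (circleMap 0 1 θ)`, `circleMap 0 1 θ = exp (θ I)`.
-/

set_option autoImplicit false
set_option linter.unusedSectionVars false
open scoped ContDiff ComplexOrder Topology
open Filter

namespace Claimed.Agent.R316.S6

open Claimed.Agent.R316 Claimed.Agent.R316.B13 Matrix

section generic

variable {V' : Type} [NormedAddCommGroup V'] [NormedSpace ℝ V']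
variable {κ : Type} [Fintype κ]
variable {𝓧 : CMfd V' κ}

theorem s6g_disc_local {f : ℂ → V'} {r : ℝ} (hf : IsHolDisc 𝓧 f r) {ζ₀ : ℂ}
    (hζ : ζ₀ ∈ Metric.ball (0 : ℂ) r) {Ψ : CE κ → V'} {W : Set (CE κ)} (hΨ : 𝓧.IsHol Ψ W)
    (h₀ : f ζ₀ ∈ Ψ '' W) :
    ∀ᶠ ζ in 𝓝 ζ₀, DifferentiableAt ℂ (Function.invFunOn Ψ W ∘ f) ζ ∧
      (Function.invFunOn Ψ W ∘ f) ζ ∈ W ∧ Ψ ((Function.invFunOn Ψ W ∘ f) ζ) = f ζ := by
  obtain ⟨hmem, hcont, hhol⟩ := hf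
  obtain ⟨W₀, hW₀, hWeq⟩ := (𝓧.isParam hΨ).image
  have hD : Metric.ball (0 : ℂ) r ∩ f ⁻¹' (Ψ '' W) = Metric.ball (0 : ℂ) r ∩ f ⁻¹' W₀ := by
    ext ζ
    constructor
    · rintro ⟨h1, h2⟩
      have h3 : f ζ ∈ Ψ '' W := h2
      rw [hWeq] at h3
      exact ⟨h1, h3.2⟩
    · rintro ⟨h1, h2⟩
      refine ⟨h1, ?_⟩
      show f ζ ∈ Ψ '' W
      rw [hWeq]
      exact ⟨hmem ζ h1, h2⟩
  have hopen : IsOpen (Metric.ball (0 : ℂ) r ∩ f ⁻¹' (Ψ '' W)) := by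
    rw [hD]
    exact hcont.isOpen_inter_preimage Metric.isOpen_ball hW₀
  filter_upwards [hopen.mem_nhds ⟨hζ, h₀⟩] with ζ hζ'
  exact ⟨(hhol Ψ W hΨ ζ hζ').differentiableAt (hopen.mem_nhds hζ'),
    Function.invFunOn_mem hζ'.2, Function.invFunOn_eq hζ'.2⟩

theorem s6g_isHolDisc_of_local {f : ℂ → V'} {r : ℝ}
    (hloc : ∀ ζ₀ ∈ Metric.ball (0 : ℂ) r, ∃ (Ψ : CE κ → V') (W : Set (CE κ)) (F : ℂ → CE κ),
      𝓧.IsHol Ψ W ∧ ∀ᶠ ζ in 𝓝 ζ₀, DifferentiableAt ℂ F ζ ∧ F ζ ∈ W ∧ f ζ = Ψ (F ζ)) :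
    IsHolDisc 𝓧 f r := by
  refine ⟨fun ζ₀ hζ₀ => ?_, fun ζ₀ hζ₀ => ?_, fun Ψ' W' hΨ' ζ₀ hζ₀ => ?_⟩
  · obtain ⟨Ψ, W, F, hΨ, hev⟩ := hloc ζ₀ hζ₀
    obtain ⟨-, h2, h3⟩ := hev.self_of_nhds
    rw [h3]
    exact s6g_mem_carrier hΨ h2
  · obtain ⟨Ψ, W, F, hΨ, hev⟩ := hloc ζ₀ hζ₀
    obtain ⟨h1, h2, h3⟩ := hev.self_of_nhds
    have hc : ContinuousAt (fun ζ => Ψ (F ζ)) ζ₀ :=
      ContinuousAt.comp (g := Ψ) (s6g_continuousAt hΨ h2) h1.continuousAt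
    have he : f =ᶠ[𝓝 ζ₀] fun ζ => Ψ (F ζ) := hev.mono fun ζ h => h.2.2
    exact (hc.congr he.symm).continuousWithinAt
  · obtain ⟨Ψ, W, F, hΨ, hev⟩ := hloc ζ₀ hζ₀.1
    obtain ⟨h1, h2, h3⟩ := hev.self_of_nhds
    have hz : F ζ₀ ∈ W ∩ Ψ ⁻¹' (Ψ' '' W') := by
      refine ⟨h2, ?_⟩
      show Ψ (F ζ₀) ∈ Ψ' '' W'
      rw [← h3]
      exact hζ₀.2
    have hd := CMfd.trans_differentiableAt hΨ hΨ' hz
    have hd2 : DifferentiableAt ℂ (fun ζ => (Function.invFunOn Ψ' W' ∘ Ψ) (F ζ)) ζ₀ :=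
      DifferentiableAt.comp (g := Function.invFunOn Ψ' W' ∘ Ψ) ζ₀ hd h1
    have he : (Function.invFunOn Ψ' W' ∘ f) =ᶠ[𝓝 ζ₀]
        fun ζ => (Function.invFunOn Ψ' W' ∘ Ψ) (F ζ) := by
      filter_upwards [hev] with ζ h
      show Function.invFunOn Ψ' W' (f ζ) = Function.invFunOn Ψ' W' (Ψ (F ζ))
      rw [h.2.2]
    exact (hd2.congr_of_eventuallyEq he).differentiableWithinAt

theorem s6g_disc_const {y : V'} (hy : y ∈ 𝓧.carrier) (r : ℝ) : IsHolDisc 𝓧 (fun _ => y) r := by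
  refine s6g_isHolDisc_of_local fun ζ₀ _ => ?_
  obtain ⟨h1, h2, h3⟩ := s6g_pspec hy
  exact ⟨𝓧.pΦ y, 𝓧.pU y, fun _ => 𝓧.co y, h1,
    Eventually.of_forall fun ζ => ⟨differentiableAt_const _, h2, h3.symm⟩⟩

theorem s6g_disc_affine {Ψ : CE κ → V'} {W : Set (CE κ)} (hΨ : 𝓧.IsHol Ψ W) {p Z : CE κ} {r : ℝ}
    (h : ∀ ζ ∈ Metric.ball (0 : ℂ) r, p + ζ • Z ∈ W) :
    IsHolDisc 𝓧 (fun ζ => Ψ (p + ζ • Z)) r := by
  refine s6g_isHolDisc_of_local fun ζ₀ hζ₀ => ?_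
  refine ⟨Ψ, W, fun ζ => p + ζ • Z, hΨ, ?_⟩
  filter_upwards [Metric.isOpen_ball.mem_nhds hζ₀] with ζ hζ
  exact ⟨by fun_prop, h ζ hζ, rfl⟩

theorem s6g_laplacian_comp_hol [DecidableEq κ] {u : CE κ → ℝ} {F : ℂ → CE κ} {ζ₀ : ℂ}
    (hF : ∀ᶠ ζ in 𝓝 ζ₀, DifferentiableAt ℂ F ζ) (hu : ContDiffAt ℝ 2 u (F ζ₀)) :
    Laplacian.laplacian (fun ζ => u (F ζ)) ζ₀ = 4 * qf (levi u (F ζ₀)) (deriv F ζ₀ : CE κ) := by
  set pr : CE (Fin 1) →L[ℂ] ℂ := EuclideanSpace.proj 0 with hpr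
  set τ : CE (Fin 1) → CE κ := fun w => F (pr w) with hτdef
  set z : CE (Fin 1) := WithLp.toLp 2 (fun _ => ζ₀) with hz
  have hprz : pr z = ζ₀ := rfl
  have hτ : ∀ᶠ w in 𝓝 z, DifferentiableAt ℂ τ w := by
    have h1 : Tendsto pr (𝓝 z) (𝓝 ζ₀) := pr.continuous.tendsto z
    filter_upwards [h1.eventually hF] with w hw
    exact DifferentiableAt.comp (g := F) w hw pr.differentiableAt
  have hG : ContDiffAt ℝ 2 (fun ζ => u (F ζ)) ζ₀ :=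
    hu.comp ζ₀ ((hol_contDiffAt_real hF).of_le lv_two_le_infty)
  have hu' : ContDiffAt ℝ 2 u (τ z) := hu
  have hf : ContDiffAt ℝ 2 (fun w => u (τ w)) z :=
    hu'.comp z ((hol_contDiffAt_real hτ).of_le lv_two_le_infty)
  have h1 := qf_levi_comp_hol τ u hτ hu' (fun j => (eb 0 : CE (Fin 1)) j)
  have h2 := qf_levi_line hf (eb 0)
  have hjac : (jac τ z).mulVec (fun j => (eb 0 : CE (Fin 1)) j) = (deriv F ζ₀ : CE κ) := by
    funext k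
    rw [jac_mulVec]
    have h3 : HasFDerivAt τ ((fderiv ℂ F ζ₀).comp pr) z :=
      HasFDerivAt.comp (g := F) z hF.self_of_nhds.hasFDerivAt pr.hasFDerivAt
    rw [h3.fderiv]
    have h4 : pr (eb 0) = 1 := by simp [hpr, eb]
    rw [ContinuousLinearMap.comp_apply, h4]
    rfl
  have e1 : (fun s : ℝ => u (τ (z + s • eb 0))) = fun s : ℝ => u (F (ζ₀ + s • (1 : ℂ))) := by
    funext s
    have : pr (z + s • eb 0) = ζ₀ + s • (1 : ℂ) := by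
      simp [hpr, eb, hz]
    simp only [hτdef, this]
  have e2 : (fun s : ℝ => u (τ (z + s • (Complex.I • eb 0)))) =
      fun s : ℝ => u (F (ζ₀ + s • Complex.I)) := by
    funext s
    have : pr (z + s • (Complex.I • eb 0)) = ζ₀ + s • Complex.I := by
      simp [hpr, eb, hz]
    simp only [hτdef, this]
  rw [InnerProductSpace.laplacian_eq_iteratedFDeriv_complexPlane]
  simp only [iteratedFDeriv_two_apply, Matrix.cons_val_zero, Matrix.cons_val_one]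
  rw [lv_snd_line hG, lv_snd_line hG, ← hjac]
  have h5 : qf (levi u (F ζ₀)) ((jac τ z).mulVec fun j => (eb 0 : CE (Fin 1)) j) =
      qf (levi u (τ z)) ((jac τ z).mulVec fun j => (eb 0 : CE (Fin 1)) j) := rfl
  rw [h5, ← h1, h2, e1, e2]
  ring

theorem s6g_cavg_eq (G : ℂ → ℝ) :
    cavg G = (2 * Real.pi)⁻¹ *
      ∫ θ in (0 : ℝ)..(2 * Real.pi), G (Complex.exp ((θ : ℂ) * Complex.I)) := by
  unfold cavg Real.circleAverage
  simp [circleMap]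

end generic

variable {V : Type} [NormedAddCommGroup V] [InnerProductSpace ℝ V] [FiniteDimensional ℝ V]
variable {ι : Type} [Fintype ι] [DecidableEq ι]
variable {𝓜 : CMfd V ι} {𝒴 : CMfd (CotAmb V) (ι ⊕ ι)}

/-- fibre scaling in cotangent coordinates, complex linear. -/
noncomputable def s6k_scaleL (ι : Type) [Fintype ι] [DecidableEq ι] (c : ℂ) :
    CE (ι ⊕ ι) →L[ℂ] CE (ι ⊕ ι) :=
  LinearMap.toContinuousLinearMap
    { toFun := fun p => cJoin (cBase p) (c • cFibE p)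
      map_add' := fun p p' => by
        ext a
        cases a <;> simp [cJoin, cBase, cFibE, cFib, mul_add]
      map_smul' := fun d p => by
        ext a
        cases a <;> simp [cJoin, cBase, cFibE, cFib]
        ring }

theorem s6k_scaleL_apply (c : ℂ) (p : CE (ι ⊕ ι)) :
    s6k_scaleL ι c p = cJoin (cBase p) (c • cFibE p) := rfl

/-- a disc of `Y` in a cotangent chart around one of its points. -/
theorem s6k_disc_chart (hY : IsCotangent 𝓜 𝒴) {f : ℂ → CotAmb V} {r : ℝ}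
    (hf : IsHolDisc 𝒴 f r) {ζ₀ : ℂ} (hζ : ζ₀ ∈ Metric.ball (0 : ℂ) r) :
    ∃ (Φ : CE ι → V) (U : Set (CE ι)) (F : ℂ → CE (ι ⊕ ι)), 𝓜.IsHol Φ U ∧
      ∀ᶠ ζ in 𝓝 ζ₀, DifferentiableAt ℂ F ζ ∧ F ζ ∈ cotDom U ∧ cotParam Φ (F ζ) = f ζ := by
  have hy := hf.1 ζ₀ hζ
  have hx := s6g_base_mem hY hy
  obtain ⟨hΦ, hz, hΦz⟩ := s6g_pspec hx
  obtain ⟨η, hη⟩ := s6g_exists_cotParam hY hy hΦ hz hΦz.symm
  exact ⟨_, _, _, hΦ, s6g_disc_local hf hζ (hY.isHol hΦ)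
    ⟨_, s6g_cJoin_mem_cotDom hz η, hη.symm⟩⟩

/-- fibre scaling maps discs to discs. -/
theorem s6g_disc_scale (hY : IsCotangent 𝓜 𝒴) (c : ℂ) {f : ℂ → CotAmb V} {r : ℝ}
    (hf : IsHolDisc 𝒴 f r) : IsHolDisc 𝒴 (fun ζ => fscale c (f ζ)) r := by
  refine s6g_isHolDisc_of_local fun ζ₀ hζ₀ => ?_
  obtain ⟨Φ, U, F, hΦ, hev⟩ := s6k_disc_chart hY hf hζ₀
  refine ⟨cotParam Φ, cotDom U, fun ζ => s6k_scaleL ι c (F ζ), hY.isHol hΦ, ?_⟩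
  filter_upwards [hev] with ζ hζ
  obtain ⟨h1, h2, h3⟩ := hζ
  refine ⟨(s6k_scaleL ι c).differentiableAt.comp ζ h1, ?_, ?_⟩
  · show cBase (s6k_scaleL ι c (F ζ)) ∈ U
    rw [s6k_scaleL_apply, cBase_cJoin]
    exact h2
  · rw [s6k_scaleL_apply, s6g_cotParam_smul, cJoin_eta, h3]

/-- `N(·, 0)` is subharmonic along holomorphic discs of `Y`. -/
theorem s6g_submean0 {g : HFam V ι} (hg : IsMetric 𝓜 g) (hb : BisecNonneg 𝓜 g)
    (hY : IsCotangent 𝓜 𝒴) {f : ℂ → CotAmb V} {r : ℝ} (hr : 1 < r) (hf : IsHolDisc 𝒴 f r) :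
    covNormSq 𝓜 g (f 0) ≤ cavg fun ζ => covNormSq 𝓜 g (f ζ) := by
  rw [s6g_cavg_eq]
  have key : ∀ ζ₀ ∈ Metric.ball (0 : ℂ) r,
      ContDiffAt ℝ 2 (fun ζ => covNormSq 𝓜 g (f ζ)) ζ₀ ∧
        0 ≤ Laplacian.laplacian (fun ζ => covNormSq 𝓜 g (f ζ)) ζ₀ := by
    intro ζ₀ hζ₀
    obtain ⟨Φ, U, F, hΦ, hev⟩ := s6k_disc_chart hY hf hζ₀
    have hU : IsOpen U := (𝓜.isParam hΦ).isOpen
    have hF : ∀ᶠ ζ in 𝓝 ζ₀, DifferentiableAt ℂ F ζ := hev.mono fun ζ h => h.1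
    have hp₀ : F ζ₀ ∈ cotDom U := hev.self_of_nhds.2.1
    have he : (fun ζ => covNormSq 𝓜 g (f ζ)) =ᶠ[𝓝 ζ₀] fun ζ => nloc g Φ (F ζ) := by
      filter_upwards [hev] with ζ hζ
      rw [← hζ.2.2, s6g_covNormSq_cotParam hg hΦ hζ.2.1]
    have hn : ContDiffAt ℝ 2 (nloc g Φ) (F ζ₀) :=
      ((s6g_contDiffOn_nloc hU (hg.smooth hΦ) (hg.posDef hΦ)).contDiffAt
        ((s6g_isOpen_cotDom hU).mem_nhds hp₀)).of_le lv_two_le_infty
    have hc : ContDiffAt ℝ 2 (fun ζ => nloc g Φ (F ζ)) ζ₀ :=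
      hn.comp ζ₀ ((hol_contDiffAt_real hF).of_le lv_two_le_infty)
    refine ⟨hc.congr_of_eventuallyEq he, ?_⟩
    have hl : Laplacian.laplacian (fun ζ => covNormSq 𝓜 g (f ζ)) ζ₀ =
        Laplacian.laplacian (fun ζ => nloc g Φ (F ζ)) ζ₀ :=
      (InnerProductSpace.laplacian_congr_nhds he).self_of_nhds
    rw [hl, s6g_laplacian_comp_hol hF hn]
    have hpsd := s6g_levi_nloc_posSemidef hU (hg.smooth hΦ) (hg.posDef hΦ) (hb Φ U hΦ) hp₀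
    have := herm_qf_nonneg hpsd (deriv F ζ₀ : CE (ι ⊕ ι))
    linarith
  exact submean_of_laplacian_nonneg Metric.isOpen_ball
    (fun ζ hζ => (key ζ hζ).1.contDiffWithinAt) (Metric.closedBall_subset_ball hr)
    fun ζ hζ => (key ζ hζ).2

end Claimed.Agent.R316.S6
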