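import Claimed.Agent.R316.S6.GTrans
import Claimed.Agent.R316.S7.H1.FlowChart

/-!
# S6-G4: the flow and the dual norm `N` in charts (leaf, ~800 lines)

The claimer owns this file: replace the `sorry`s IN PLACE, keep the statements (auxiliary lemmas: prefix `s6f_`; problems: msg helper126).  All statements of `GTrans`, `CW/`, `B13/HermMat` may be used.

RECIPES.
* The flow in a chart is `R316/S7/H1/FlowChart.lean` (prefix `fc_`, general `V`): `s6g_h_zero`, `s6g_contDiffOn_h` are proved from it below; use `fc_P_chart`, `fc_posDef`, … freely.  `CW/MatAlg.lean` has `loewner_inv_anti`, `posDef_inv_transpose`, `loewner_transpose`, `qf_inv_transpose_anti`.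
* `s6g_contDiffOn_bmat`: `contDiffOn_matInv_of_posDef` (CW-3) for `s6g_contDiffOn_h`.
* `s6g_bmat_anti`: for positive definite `A ≤ B`: `B⁻¹ ≤ A⁻¹`.  Elementary: `u = B⁻¹ v`; `0 ≤ (v - A u)ᴴ A⁻¹ (v - A u)` gives `vᴴ A⁻¹ v ≥ 2 Re uᴴ v - uᴴ A u ≥ 2 uᴴ B u - uᴴ B u = vᴴ B⁻¹ v`; then transpose (`Matrix.PosSemidef.transpose`), `herm_posSemidef_of_qf`.
* `s6g_logdet_h`: `D.P_eq`, `detRatio`, `CMfd.scal`, `detF` unfold to `log ((det h / det g).re)` in the chosen chart; both determinants are positive reals (`ofReal_det_re_of_posDef`, `log_det_div_re` of CW-3).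
* `s6g_N_chart` = `s6g_covNormSq_cotParam`.  `s6g_N_nonneg`, `s6g_N_mono`: directly in the chosen chart of the definition of `covNormSq` (`s6g_pspec`, `s6g_base_mem`).
* `s6g_N_continuousOn`: at `(y₀, t₀)` take `Φ = 𝓜.pΦ y₀.1`, `y₀ = cotParam Φ p₀` (`s6g_exists_cotParam`); for `y ∈ 𝒴.carrier` near `y₀`: `y = cotParam Φ p`, `p = invFunOn (cotParam Φ) (cotDom U) y → p₀` (`s6g_tendsto_inv`, `s6g_eventually_mem_image` for `𝒴`, `hY.isHol`);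
  `(t, p) ↦ nloc (D.h t) Φ p` is continuous on `Ioi 0 ×ˢ cotDom U` (`s6g_contDiffOn_bmat`, `contDiffOn_qf`).
-/

set_option autoImplicit false
set_option linter.unusedSectionVars false
open scoped ContDiff ComplexOrder Topology
open Filter

namespace Claimed.Agent.R316.S6

open Claimed.Agent.R316 Claimed.Agent.R316.B13 Matrix

section metric

variable {V : Type} [NormedAddCommGroup V] [InnerProductSpace ℝ V] [FiniteDimensional ℝ V]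
variable {ι : Type} [Fintype ι] [DecidableEq ι]
variable {𝓜 : CMfd V ι} {Φ : CE ι → V} {U : Set (CE ι)}

theorem s6g_transpose_bmat (h : HFam V ι) (Φ : CE ι → V) (z : CE ι) :
    (bmat h Φ z)ᵀ = (h Φ z)⁻¹ :=
  Matrix.transpose_transpose _

theorem s6g_bmat_posDef {h : HFam V ι} (hh : IsMetric 𝓜 h) (hΦ : 𝓜.IsHol Φ U) {z : CE ι}
    (hz : z ∈ U) : (bmat h Φ z).PosDef :=
  posDef_inv_transpose (hh.posDef hΦ z hz)

theorem s6g_log_det_bmat {h : HFam V ι} (hh : IsMetric 𝓜 h) (hΦ : 𝓜.IsHol Φ U) {z : CE ι}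
    (hz : z ∈ U) : Real.log (bmat h Φ z).det.re = - Real.log (h Φ z).det.re := by
  unfold bmat
  rw [Matrix.det_transpose, s6e_log_det_inv (hh.posDef hΦ z hz)]

/-- `h ≤ h'` implies `b' ≤ b`. -/
theorem s6g_bmat_anti {h h' : HFam V ι} (hh : IsMetric 𝓜 h) (hh' : IsMetric 𝓜 h')
    (hle : leF 𝓜 h h') (hΦ : 𝓜.IsHol Φ U) {z : CE ι} (hz : z ∈ U) :
    (bmat h Φ z - bmat h' Φ z).PosSemidef :=
  loewner_transpose (loewner_inv_anti (hh.posDef hΦ z hz) (hle Φ U hΦ z hz))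

theorem s6f_contDiff_cBase : ContDiff ℝ ∞ (cBase : CE (ι ⊕ ι) → CE ι) := by
  unfold cBase
  refine (PiLp.continuousLinearEquiv 2 ℝ (fun _ : ι => ℂ)).symm.contDiff.comp ?_
  exact contDiff_pi.2 fun j => contDiff_coord

end metric

variable {V : Type} [NormedAddCommGroup V] [InnerProductSpace ℝ V] [FiniteDimensional ℝ V]
variable [MeasurableSpace V] [BorelSpace V]
variable {n : ℕ} {𝓜 : CMfd V (Fin n)} {g : HFam V (Fin n)} {o : V}
variable (D : FlowData 𝓜 g o) {𝒴 : CMfd (CotAmb V) (Fin n ⊕ Fin n)}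
variable {Φ : CE (Fin n) → V} {U : Set (CE (Fin n))}

theorem s6g_h_metric {t : ℝ} (ht : 0 ≤ t) : IsMetric 𝓜 (D.h t) := (D.kahler t ht).toIsMetric

theorem s6g_h_zero (hΦ : 𝓜.IsHol Φ U) {z : CE (Fin n)} (hz : z ∈ U) : D.h 0 Φ z = g Φ z :=
  fc_h_zero D hΦ hz

theorem s6g_contDiffOn_h (hg : IsMetric 𝓜 g) (hΦ : 𝓜.IsHol Φ U) (j k : Fin n) :
    ContDiffOn ℝ ∞ (fun q : ℝ × CE (Fin n) => D.h q.1 Φ q.2 j k) (Set.Ioi 0 ×ˢ U) :=
  (fc_contDiffOn_h D hg hΦ j k).mono (Set.prod_mono Set.Ioi_subset_Ici_self subset_rfl)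

theorem s6g_contDiffOn_bmat (hg : IsMetric 𝓜 g) (hΦ : 𝓜.IsHol Φ U) (j k : Fin n) :
    ContDiffOn ℝ ∞ (fun q : ℝ × CE (Fin n) => bmat (D.h q.1) Φ q.2 j k) (Set.Ioi 0 ×ˢ U) :=
  (fc_contDiffOn_inv D hg hΦ k j).mono (Set.prod_mono Set.Ioi_subset_Ici_self subset_rfl)

theorem s6g_logdet_h (hg : IsMetric 𝓜 g) {x : V} (hx : x ∈ 𝓜.carrier) {t : ℝ} (ht : 0 ≤ t) :
    Real.log (D.h t (𝓜.pΦ x) (𝓜.co x)).det.re =
      D.P t x + Real.log (g (𝓜.pΦ x) (𝓜.co x)).det.re := by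
  have h := fc_P_chart D hg (𝓜.isHol_pΦ hx) ht (𝓜.co_mem hx)
  rw [𝓜.pΦ_co hx] at h
  linarith

theorem s6g_rho_zero (hg : IsMetric 𝓜 g) {x : V} (hx : x ∈ 𝓜.carrier) : D.rho 0 x = 0 := by
  have h := s6g_logdet_h D hg hx le_rfl
  rw [s6g_h_zero D (𝓜.isHol_pΦ hx) (𝓜.co_mem hx)] at h
  unfold FlowData.rho
  linarith

theorem s6g_rho_continuousOn :
    ContinuousOn (fun p : ℝ × V => D.rho p.1 p.2) (Set.Ici 0 ×ˢ 𝓜.carrier) :=
  D.P_smooth.continuousOn.neg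

/-! ### the dual norm -/

theorem s6g_N_chart (hΦ : 𝓜.IsHol Φ U) {p : CE (Fin n ⊕ Fin n)} (hp : p ∈ cotDom U) {t : ℝ}
    (ht : 0 ≤ t) : D.N (cotParam Φ p) t = nloc (D.h t) Φ p :=
  s6g_covNormSq_cotParam (s6g_h_metric D ht) hΦ hp

theorem s6g_N_zero (hY : IsCotangent 𝓜 𝒴) {y : CotAmb V} (hy : y ∈ 𝒴.carrier) :
    D.N y 0 = covNormSq 𝓜 g y := by
  have hx := s6g_base_mem hY hy
  unfold FlowData.N covNormSq
  rw [s6g_h_zero D (𝓜.isHol_pΦ hx) (𝓜.co_mem hx)]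

theorem s6g_N_nonneg (hY : IsCotangent 𝓜 𝒴) {y : CotAmb V} (hy : y ∈ 𝒴.carrier) {t : ℝ}
    (ht : 0 ≤ t) : 0 ≤ D.N y t := by
  have hx := s6g_base_mem hY hy
  exact herm_qf_nonneg
    (s6g_bmat_posDef (s6g_h_metric D ht) (𝓜.isHol_pΦ hx) (𝓜.co_mem hx)).posSemidef _

theorem s6g_N_mono (hg : IsMetric 𝓜 g) (hY : IsCotangent 𝓜 𝒴) {y : CotAmb V}
    (hy : y ∈ 𝒴.carrier) {t : ℝ} (ht : 0 ≤ t) : D.N y 0 ≤ D.N y t := by
  have hx := s6g_base_mem hY hy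
  rw [s6g_N_zero D hY hy]
  exact qf_inv_transpose_anti ((s6g_h_metric D ht).posDef (𝓜.isHol_pΦ hx) _ (𝓜.co_mem hx))
    (D.le_g t ht _ _ (𝓜.isHol_pΦ hx) _ (𝓜.co_mem hx)) _

theorem s6g_N_fscale (c : ℂ) (y : CotAmb V) (t : ℝ) :
    D.N (fscale c y) t = ‖c‖ ^ 2 * D.N y t :=
  s6g_covNormSq_fscale (D.h t) c y

theorem s6f_contDiffOn_bmat_cBase (hg : IsMetric 𝓜 g) (hΦ : 𝓜.IsHol Φ U) (j k : Fin n) :
    ContDiffOn ℝ ∞ (fun q : ℝ × CE (Fin n ⊕ Fin n) => bmat (D.h q.1) Φ (cBase q.2) j k)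
      (Set.Ici 0 ×ˢ cotDom U) := by
  have h2 : ContDiff ℝ ∞ fun q : ℝ × CE (Fin n ⊕ Fin n) => ((q.1, cBase q.2) : ℝ × CE (Fin n)) :=
    contDiff_fst.prodMk (s6f_contDiff_cBase.comp contDiff_snd)
  have h3 := (fc_contDiffOn_inv D hg hΦ k j).comp (s := Set.Ici 0 ×ˢ cotDom U) h2.contDiffOn
    fun q hq => ⟨hq.1, hq.2⟩
  exact h3

theorem s6f_contDiffOn_nloc (hg : IsMetric 𝓜 g) (hΦ : 𝓜.IsHol Φ U) :
    ContDiffOn ℝ ∞ (fun q : ℝ × CE (Fin n ⊕ Fin n) => nloc (D.h q.1) Φ q.2)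
      (Set.Ici 0 ×ˢ cotDom U) := by
  have h := contDiffOn_qf (N := ∞) (s := Set.Ici (0 : ℝ) ×ˢ cotDom U)
    (H := fun q : ℝ × CE (Fin n ⊕ Fin n) => bmat (D.h q.1) Φ (cBase q.2))
    (v := fun q => cFib q.2) (fun j k => s6f_contDiffOn_bmat_cBase D hg hΦ j k)
    (fun j => ((contDiff_coord (k := Sum.inr j)).comp contDiff_snd).contDiffOn)
  exact h

/-- the dual norm is smooth on `[0, ∞) × Y`. -/
theorem s6f_N_smoothST (hg : IsMetric 𝓜 g) (hY : IsCotangent 𝓜 𝒴) :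
    𝒴.SmoothST (Set.Ici 0) (fun t y => D.N y t) := by
  refine CMfd.smoothST_of_cover fun y hy => ?_
  have hx := s6g_base_mem hY hy
  have hΦ := 𝓜.isHol_pΦ hx
  obtain ⟨ζ, hζ⟩ := s6g_exists_cotParam hY hy hΦ (𝓜.co_mem hx) (𝓜.pΦ_co hx).symm
  refine ⟨cotParam (𝓜.pΦ y.1), cotDom (𝓜.pU y.1), hY.isHol hΦ,
    ⟨_, s6g_cJoin_mem_cotDom (𝓜.co_mem hx) ζ, hζ.symm⟩, ?_⟩
  refine (s6f_contDiffOn_nloc D hg hΦ).congr fun q hq => ?_
  exact s6g_N_chart D hΦ hq.2 hq.1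

theorem s6g_N_continuousOn (hg : IsMetric 𝓜 g) (hY : IsCotangent 𝓜 𝒴) :
    ContinuousOn (fun q : CotAmb V × ℝ => D.N q.1 q.2) (𝒴.carrier ×ˢ Set.Ioi 0) := by
  have h := (s6f_N_smoothST D hg hY).continuousOn
  have h2 := h.comp (f := fun q : CotAmb V × ℝ => ((q.2, q.1) : ℝ × CotAmb V))
    (s := 𝒴.carrier ×ˢ Set.Ioi 0) continuous_swap.continuousOn
    (fun q hq => ⟨Set.Ioi_subset_Ici_self hq.2, hq.1⟩)
  exact h2

theorem s6g_N0_continuousOn (hg : IsMetric 𝓜 g) (hY : IsCotangent 𝓜 𝒴) :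
    ContinuousOn (fun y : CotAmb V => D.N y 0) 𝒴.carrier := by
  have h := (s6f_N_smoothST D hg hY).continuousOn
  have h2 := h.comp (f := fun y : CotAmb V => ((0, y) : ℝ × CotAmb V))
    (s := 𝒴.carrier) (continuous_const.prodMk continuous_id).continuousOn
    (fun y hy => ⟨Set.self_mem_Ici, hy⟩)
  exact h2

end Claimed.Agent.R316.S6
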