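import Claimed.Agent.R316.S6.GDisc
import Claimed.Agent.R316.S6.GFlow

/-!
# S6-G5: the envelope: sandwich, lower semicontinuity, homogeneity (`var:sandwich`, `ell:envelope-bounds`) (leaf, ~800 lines)

The claimer owns this file: replace the `sorry`s IN PLACE, keep the statements (auxiliary lemmas: prefix `s6e_`; problems: msg helper126).  All statements of `GTrans`, `GDisc`, `GFlow` may be used.

RECIPES.  `Filter.liminf f F = sSup {a | ∀ᶠ x in F, a ≤ f x}` (`Filter.liminf_eq`).  For `x ∈ S` every `a` of this set for `F = 𝓝[S] x` satisfies `a ≤ f x` (`Filter.Eventually.self_of_nhdsWithin`): the set is bounded above, NO local upper bound of `f` is needed.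
* `s6g_liminf_lsc`: `a < liminf` ⟹ some `a' > a` with `∀ᶠ x' in 𝓝[S] x, a' ≤ f x'` (`exists_lt_of_lt_csSup`) ⟹ (`eventually_eventually_nhdsWithin`) for `x''` near `x` in `S` the same `a'` belongs to the set at `x''`.
* `s6g_liminf_scale`: `𝓝[S] (σ x) = map σ (𝓝[S] x)` (`Homeomorph.map_nhds_eq`, `Filter.map_inf`…, or `σ.isInducing`/`nhdsWithin` of a preimage), the set for `σ x` is `k • ` the set for `x`, `Real.sSup_smul_of_nonneg`.
* `cavg`: `Real.circleAverage`; `s6g_cavg_eq`; nonnegativity by `intervalIntegral.integral_nonneg`; monotonicity needs interval integrability = continuity of `θ ↦ D.N (f (e^{iθ})) (…)` (`s6g_N_continuousOn`, `s6g_N0_continuousOn`, `IsHolDisc` continuity, the unit circle lies in `ball 0 r`).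
* `s6g_vraw_le_N`: the constant competitor (`r = 2`, `s6g_disc_const`, `w = 0`).
* `s6g_N0_le_vraw`: `le_csInf`; for a competitor: `N(y,0) = covNormSq g (f 0) ≤ cavg (covNormSq g ∘ f) = cavg N(f ·, 0) ≤ cavg N(f ·, s e^{2 Re w})` (`s6g_submean0`, `s6g_N_zero`, `s6g_N_mono`).
* `s6g_vraw_fscale`: the set of competitor values at `fscale c y` is `‖c‖² •` the set at `y` (`s6g_disc_scale` with `c` and `c⁻¹`, `s6g_N_fscale`), `Real.sInf_smul_of_nonneg`.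
* `s6g_venv_fscale`: `c ≠ 0`: `s6g_liminf_scale` with the homeomorphism `(y, s) ↦ (fscale c y, s)`; `c = 0`: both sides vanish by the sandwich and `s6g_N_fscale`.
-/

set_option autoImplicit false
set_option linter.unusedSectionVars false
open scoped ContDiff ComplexOrder Topology
open Filter

namespace Claimed.Agent.R316.S6

open Claimed.Agent.R316 Claimed.Agent.R316.B13 Matrix

section abstract

variable {X : Type*} [TopologicalSpace X] {f u : X → ℝ} {S : Set X} {x : X}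

theorem s6env_bddAbove (hx : x ∈ S) : BddAbove {a : ℝ | ∀ᶠ x' in 𝓝[S] x, a ≤ f x'} :=
  ⟨f x, fun a ha => by
    have ha' : ∀ᶠ x' in 𝓝[S] x, a ≤ f x' := ha
    exact ha'.self_of_nhdsWithin hx⟩

theorem s6g_liminf_le (hx : x ∈ S) {c : ℝ} (hc : ∀ᶠ x' in 𝓝[S] x, c ≤ f x') :
    liminf f (𝓝[S] x) ≤ f x := by
  rw [liminf_eq]
  refine csSup_le ⟨c, hc⟩ fun a ha => ?_
  have ha' : ∀ᶠ x' in 𝓝[S] x, a ≤ f x' := ha
  exact ha'.self_of_nhdsWithin hx

theorem s6g_le_liminf (hx : x ∈ S) (hu : LowerSemicontinuousWithinAt u S x)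
    (hle : ∀ᶠ x' in 𝓝[S] x, u x' ≤ f x') : u x ≤ liminf f (𝓝[S] x) := by
  rw [liminf_eq]
  refine le_of_forall_lt fun a ha => ?_
  obtain ⟨a', h1, h2⟩ := exists_between ha
  refine lt_of_lt_of_le h1 (le_csSup (s6env_bddAbove hx) ?_)
  filter_upwards [hu a' h2, hle] with x' h3 h4
  exact h3.le.trans h4

theorem s6g_liminf_lsc {c : ℝ} (hc : ∀ x' ∈ S, c ≤ f x') (hx : x ∈ S) :
    LowerSemicontinuousWithinAt (fun x' => liminf f (𝓝[S] x')) S x := by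
  intro a ha
  have ha' : a < liminf f (𝓝[S] x) := ha
  rw [liminf_eq] at ha'
  have hne : {a : ℝ | ∀ᶠ x' in 𝓝[S] x, a ≤ f x'}.Nonempty :=
    ⟨c, eventually_nhdsWithin_of_forall hc⟩
  obtain ⟨a', h1, h2⟩ := exists_lt_of_lt_csSup hne ha'
  have h1' : ∀ᶠ x' in 𝓝[S] x, a' ≤ f x' := h1
  filter_upwards [eventually_eventually_nhdsWithin.2 h1', self_mem_nhdsWithin] with x'' h3 h4
  show a < liminf f (𝓝[S] x'')
  rw [liminf_eq]
  exact lt_of_lt_of_le h2 (le_csSup (s6env_bddAbove h4) h3)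

open scoped Pointwise in
theorem s6g_liminf_scale (σ : X ≃ₜ X) (hσ : ∀ x', σ x' ∈ S ↔ x' ∈ S) {k : ℝ} (hk : 0 ≤ k)
    (hf : ∀ x' ∈ S, f (σ x') = k * f x') (x : X) :
    liminf f (𝓝[S] (σ x)) = k * liminf f (𝓝[S] x) := by
  have hpre : σ ⁻¹' S = S := Set.ext fun x' => hσ x'
  have hmap : 𝓝[S] (σ x) = map σ (𝓝[S] x) := by
    have := σ.isOpenEmbedding.map_nhdsWithin_preimage_eq S x
    rw [hpre] at this
    exact this.symm
  have hiff : ∀ a : ℝ, (∀ᶠ x' in 𝓝[S] (σ x), a ≤ f x') ↔ ∀ᶠ x' in 𝓝[S] x, a ≤ k * f x' := by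
    intro a
    rw [hmap, eventually_map]
    refine eventually_congr ?_
    filter_upwards [self_mem_nhdsWithin] with x' hx'
    rw [hf x' hx']
  rw [liminf_eq, liminf_eq]
  have hset : {a : ℝ | ∀ᶠ x' in 𝓝[S] (σ x), a ≤ f x'} =
      {a : ℝ | ∀ᶠ x' in 𝓝[S] x, a ≤ k * f x'} := Set.ext hiff
  rw [hset]
  rcases hk.eq_or_lt with rfl | hk0
  · simp only [zero_mul]
    rcases (𝓝[S] x).eq_or_neBot with hbot | hne
    · rw [hbot]
      simp
    · simp only [eventually_const]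
      exact csSup_Iic
  · have hsm : {a : ℝ | ∀ᶠ x' in 𝓝[S] x, a ≤ k * f x'} =
        k • {a : ℝ | ∀ᶠ x' in 𝓝[S] x, a ≤ f x'} := by
      ext a
      rw [Set.mem_smul_set]
      constructor
      · intro ha
        refine ⟨a / k, ?_, by rw [smul_eq_mul]; field_simp⟩
        have ha' : ∀ᶠ x' in 𝓝[S] x, a ≤ k * f x' := ha
        filter_upwards [ha'] with x' hx'
        rw [div_le_iff₀ hk0]
        linarith
      · rintro ⟨b, hb, rfl⟩
        have hb' : ∀ᶠ x' in 𝓝[S] x, b ≤ f x' := hb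
        show ∀ᶠ x' in 𝓝[S] x, k • b ≤ k * f x'
        filter_upwards [hb'] with x' hx'
        exact mul_le_mul_of_nonneg_left hx' hk0.le
    rw [hsm, Real.sSup_smul_of_nonneg hk0.le, smul_eq_mul]

end abstract

section cavg

theorem s6env_norm_exp (θ : ℝ) : ‖Complex.exp ((θ : ℂ) * Complex.I)‖ = 1 :=
  Complex.norm_exp_ofReal_mul_I θ

theorem s6env_cavg_nonneg {G : ℂ → ℝ} (h : ∀ ζ : ℂ, ‖ζ‖ = 1 → 0 ≤ G ζ) : 0 ≤ cavg G := by
  rw [s6g_cavg_eq]
  refine mul_nonneg (by positivity) ?_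
  exact intervalIntegral.integral_nonneg (by positivity) fun θ _ => h _ (s6env_norm_exp θ)

theorem s6env_cavg_congr {G G' : ℂ → ℝ} (h : ∀ ζ : ℂ, ‖ζ‖ = 1 → G ζ = G' ζ) :
    cavg G = cavg G' := by
  rw [s6g_cavg_eq, s6g_cavg_eq]
  congr 1
  exact intervalIntegral.integral_congr fun θ _ => h _ (s6env_norm_exp θ)

theorem s6env_cavg_mono {G G' : ℂ → ℝ}
    (hG : Continuous fun θ : ℝ => G (Complex.exp ((θ : ℂ) * Complex.I)))
    (hG' : Continuous fun θ : ℝ => G' (Complex.exp ((θ : ℂ) * Complex.I)))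
    (h : ∀ ζ : ℂ, ‖ζ‖ = 1 → G ζ ≤ G' ζ) : cavg G ≤ cavg G' := by
  rw [s6g_cavg_eq, s6g_cavg_eq]
  refine mul_le_mul_of_nonneg_left ?_ (by positivity)
  exact intervalIntegral.integral_mono_on (by positivity) (hG.intervalIntegrable _ _)
    (hG'.intervalIntegrable _ _) fun θ _ => h _ (s6env_norm_exp θ)

theorem s6env_cavg_const_mul (k : ℝ) (G : ℂ → ℝ) : cavg (fun ζ => k * G ζ) = k * cavg G := by
  rw [s6g_cavg_eq, s6g_cavg_eq, intervalIntegral.integral_const_mul]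
  ring

theorem s6env_cavg_const (a : ℝ) : cavg (fun _ => a) = a := by
  rw [s6g_cavg_eq, intervalIntegral.integral_const, smul_eq_mul, sub_zero]
  have : (2 * Real.pi) ≠ 0 := by positivity
  field_simp

end cavg

variable {V : Type} [NormedAddCommGroup V] [InnerProductSpace ℝ V] [FiniteDimensional ℝ V]
variable [MeasurableSpace V] [BorelSpace V]
variable {n : ℕ} {𝓜 : CMfd V (Fin n)} {g : HFam V (Fin n)} {o : V}
variable (D : FlowData 𝓜 g o) {𝒴 : CMfd (CotAmb V) (Fin n ⊕ Fin n)}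
variable {T s : ℝ} {y : CotAmb V}

theorem s6g_bisecNonneg (I : InitialData 𝓜 g) : BisecNonneg 𝓜 g := by
  intro Φ U hΦ z hz v w
  by_cases hv : v = 0
  · subst hv
    simp [bisec]
  by_cases hw : w = 0
  · subst hw
    simp [bisec]
  exact (I.bisec Φ U hΦ z hz v w hv hw).le

/-! ### the raw envelope -/

/-- points of the unit circle lie in the disc of a competitor. -/
theorem s6env_mem_ball {r : ℝ} (hr : 1 < r) {ζ : ℂ} (hζ : ‖ζ‖ = 1) :
    ζ ∈ Metric.ball (0 : ℂ) r := by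
  rw [mem_ball_zero_iff, hζ]
  exact hr

theorem s6env_value_nonneg (hY : IsCotangent 𝓜 𝒴) (hs : 0 < s) {f : ℂ → CotAmb V} {w : ℂ → ℂ}
    (hc : IsCompetitor 𝒴 T y s f w) :
    0 ≤ cavg fun ζ => D.N (f ζ) (s * Real.exp (2 * (w ζ).re)) := by
  obtain ⟨r, hr, hf, -⟩ := hc
  refine s6env_cavg_nonneg fun ζ hζ => ?_
  exact s6g_N_nonneg D hY (hf.1 ζ (s6env_mem_ball hr hζ)) (by positivity)

theorem s6env_bddBelow (hY : IsCotangent 𝓜 𝒴) (hs : 0 < s) :
    BddBelow {a : ℝ | ∃ (f : ℂ → CotAmb V) (w : ℂ → ℂ), IsCompetitor 𝒴 T y s f w ∧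
      a = cavg fun ζ => D.N (f ζ) (s * Real.exp (2 * (w ζ).re))} := by
  refine ⟨0, ?_⟩
  rintro a ⟨f, w, hc, rfl⟩
  exact s6env_value_nonneg D hY hs hc

theorem s6g_vraw_le_cavg (hY : IsCotangent 𝓜 𝒴) (hs : 0 < s) {f : ℂ → CotAmb V} {w : ℂ → ℂ}
    (hc : IsCompetitor 𝒴 T y s f w) :
    D.vraw 𝒴 T y s ≤ cavg fun ζ => D.N (f ζ) (s * Real.exp (2 * (w ζ).re)) :=
  csInf_le (s6env_bddBelow D hY hs) ⟨f, w, hc, rfl⟩

theorem s6env_const_competitor (hy : y ∈ 𝒴.carrier) (hsT : s < T) :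
    IsCompetitor 𝒴 T y s (fun _ => y) (fun _ => 0) :=
  ⟨2, one_lt_two, s6g_disc_const hy 2, differentiableOn_const _, rfl, rfl, fun ζ _ => by
    simpa using hsT⟩

theorem s6g_vraw_le_N (hY : IsCotangent 𝓜 𝒴) (hy : y ∈ 𝒴.carrier) (hs : 0 < s) (hsT : s < T) :
    D.vraw 𝒴 T y s ≤ D.N y s := by
  have h := s6g_vraw_le_cavg D hY hs (s6env_const_competitor hy hsT)
  rw [s6env_cavg_const] at h
  simpa using h

/-- continuity along the unit circle. -/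
theorem s6env_continuous_circle (hg : IsMetric 𝓜 g) (hY : IsCotangent 𝓜 𝒴) (hs : 0 < s)
    {f : ℂ → CotAmb V} {w : ℂ → ℂ} (hc : IsCompetitor 𝒴 T y s f w) :
    (Continuous fun θ : ℝ => D.N (f (Complex.exp ((θ : ℂ) * Complex.I))) 0) ∧
    Continuous fun θ : ℝ => D.N (f (Complex.exp ((θ : ℂ) * Complex.I)))
      (s * Real.exp (2 * (w (Complex.exp ((θ : ℂ) * Complex.I))).re)) := by
  obtain ⟨r, hr, hf, hw, -⟩ := hc
  have hE : Continuous fun θ : ℝ => Complex.exp ((θ : ℂ) * Complex.I) := by fun_prop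
  have hEm : ∀ θ : ℝ, Complex.exp ((θ : ℂ) * Complex.I) ∈ Metric.ball (0 : ℂ) r := fun θ =>
    s6env_mem_ball hr (s6env_norm_exp θ)
  have hfc : Continuous fun θ : ℝ => f (Complex.exp ((θ : ℂ) * Complex.I)) :=
    hf.2.1.comp_continuous hE hEm
  have hwc : Continuous fun θ : ℝ => w (Complex.exp ((θ : ℂ) * Complex.I)) :=
    hw.continuousOn.comp_continuous hE hEm
  constructor
  · exact (s6g_N0_continuousOn D hg hY).comp_continuous hfc fun θ => hf.1 _ (hEm θ)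
  · have h1 : Continuous fun θ : ℝ => ((f (Complex.exp ((θ : ℂ) * Complex.I)),
        s * Real.exp (2 * (w (Complex.exp ((θ : ℂ) * Complex.I))).re)) : CotAmb V × ℝ) :=
      hfc.prodMk (continuous_const.mul (Real.continuous_exp.comp
        (continuous_const.mul (Complex.continuous_re.comp hwc))))
    have h2 := (s6g_N_continuousOn D hg hY).comp_continuous h1 fun θ =>
      ⟨hf.1 _ (hEm θ), Set.mem_Ioi.2 (by positivity)⟩
    exact h2

theorem s6g_N0_le_vraw (I : InitialData 𝓜 g) (hY : IsCotangent 𝓜 𝒴) (hy : y ∈ 𝒴.carrier)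
    (hs : 0 < s) (hsT : s < T) : D.N y 0 ≤ D.vraw 𝒴 T y s := by
  have hg : IsMetric 𝓜 g := I.kahler.toIsMetric
  refine le_csInf ⟨_, _, _, s6env_const_competitor hy hsT, rfl⟩ ?_
  rintro a ⟨f, w, hc, rfl⟩
  obtain ⟨hc1, hc2⟩ := s6env_continuous_circle D hg hY hs hc
  obtain ⟨r, hr, hf, hw, hf0, -⟩ := hc
  have h1 := s6g_submean0 hg (s6g_bisecNonneg I) hY hr hf
  rw [hf0, ← s6g_N_zero D hY hy] at h1
  have h2 : (cavg fun ζ => covNormSq 𝓜 g (f ζ)) = cavg fun ζ => D.N (f ζ) 0 :=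
    s6env_cavg_congr fun ζ hζ => (s6g_N_zero D hY (hf.1 ζ (s6env_mem_ball hr hζ))).symm
  rw [h2] at h1
  refine h1.trans (s6env_cavg_mono hc1 hc2 fun ζ hζ => ?_)
  exact s6g_N_mono D hg hY (hf.1 ζ (s6env_mem_ball hr hζ)) (by positivity)

theorem s6env_fscale_fscale (c d : ℂ) (y : CotAmb V) :
    fscale c (fscale d y) = fscale (c * d) y := by
  unfold fscale
  simp only [mul_smul]

theorem s6env_fscale_one (y : CotAmb V) : fscale 1 y = y := by
  unfold fscale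
  simp

theorem s6env_competitor_scale (hY : IsCotangent 𝓜 𝒴) (c : ℂ) {f : ℂ → CotAmb V} {w : ℂ → ℂ}
    (hc : IsCompetitor 𝒴 T y s f w) :
    IsCompetitor 𝒴 T (fscale c y) s (fun ζ => fscale c (f ζ)) w := by
  obtain ⟨r, hr, hf, hw, hf0, hw0, hT⟩ := hc
  exact ⟨r, hr, s6g_disc_scale hY c hf, hw, congrArg (fscale c) hf0, hw0, hT⟩

open scoped Pointwise in
theorem s6g_vraw_fscale (hY : IsCotangent 𝓜 𝒴) {c : ℂ} (hc : c ≠ 0) (T : ℝ) (y : CotAmb V)
    (s : ℝ) : D.vraw 𝒴 T (fscale c y) s = ‖c‖ ^ 2 * D.vraw 𝒴 T y s := by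
  unfold FlowData.vraw
  have hset : {a : ℝ | ∃ (f : ℂ → CotAmb V) (w : ℂ → ℂ), IsCompetitor 𝒴 T (fscale c y) s f w ∧
      a = cavg fun ζ => D.N (f ζ) (s * Real.exp (2 * (w ζ).re))} =
      (‖c‖ ^ 2) • {a : ℝ | ∃ (f : ℂ → CotAmb V) (w : ℂ → ℂ), IsCompetitor 𝒴 T y s f w ∧
      a = cavg fun ζ => D.N (f ζ) (s * Real.exp (2 * (w ζ).re))} := by
    ext a
    rw [Set.mem_smul_set]
    constructor
    · rintro ⟨f, w, hcomp, rfl⟩
      have h1 := s6env_competitor_scale hY c⁻¹ hcomp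
      rw [s6env_fscale_fscale, inv_mul_cancel₀ hc, s6env_fscale_one] at h1
      refine ⟨_, ⟨_, w, h1, rfl⟩, ?_⟩
      simp only [s6g_N_fscale]
      rw [s6env_cavg_const_mul, smul_eq_mul, ← mul_assoc, norm_inv, ← mul_pow,
        mul_inv_cancel₀ (norm_ne_zero_iff.2 hc), one_pow, one_mul]
    · rintro ⟨_, ⟨f, w, hcomp, rfl⟩, rfl⟩
      refine ⟨_, w, s6env_competitor_scale hY c hcomp, ?_⟩
      simp only [s6g_N_fscale]
      rw [s6env_cavg_const_mul, smul_eq_mul]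
  rw [hset, Real.sInf_smul_of_nonneg (by positivity), smul_eq_mul]

/-! ### the envelope -/

theorem s6env_vraw_nonneg (I : InitialData 𝓜 g) (hY : IsCotangent 𝓜 𝒴) :
    ∀ q ∈ 𝒴.carrier ×ˢ Set.Ioo 0 T, (0 : ℝ) ≤ D.vraw 𝒴 T q.1 q.2 := fun q hq =>
  (s6g_N_nonneg D hY hq.1 le_rfl).trans (s6g_N0_le_vraw D I hY hq.1 hq.2.1 hq.2.2)

theorem s6g_venv_le_vraw (I : InitialData 𝓜 g) (hY : IsCotangent 𝓜 𝒴) (hy : y ∈ 𝒴.carrier)
    (hs : 0 < s) (hsT : s < T) : D.venv 𝒴 T y s ≤ D.vraw 𝒴 T y s :=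
  s6g_liminf_le (f := fun q : CotAmb V × ℝ => D.vraw 𝒴 T q.1 q.2)
    (S := 𝒴.carrier ×ˢ Set.Ioo 0 T) (x := (y, s)) ⟨hy, hs, hsT⟩
    (eventually_nhdsWithin_of_forall (s6env_vraw_nonneg D I hY))

theorem s6g_N0_le_venv (I : InitialData 𝓜 g) (hY : IsCotangent 𝓜 𝒴) (hy : y ∈ 𝒴.carrier)
    (hs : 0 < s) (hsT : s < T) : D.N y 0 ≤ D.venv 𝒴 T y s := by
  have hc : ContinuousOn (fun q : CotAmb V × ℝ => D.N q.1 0) (𝒴.carrier ×ˢ Set.Ioo 0 T) :=
    (s6g_N0_continuousOn D I.kahler.toIsMetric hY).comp continuousOn_fst fun q hq => hq.1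
  exact s6g_le_liminf (u := fun q : CotAmb V × ℝ => D.N q.1 0)
    (f := fun q : CotAmb V × ℝ => D.vraw 𝒴 T q.1 q.2)
    (S := 𝒴.carrier ×ˢ Set.Ioo 0 T) (x := (y, s)) ⟨hy, hs, hsT⟩
    (hc (y, s) ⟨hy, hs, hsT⟩).lowerSemicontinuousWithinAt
    (eventually_nhdsWithin_of_forall fun q hq => s6g_N0_le_vraw D I hY hq.1 hq.2.1 hq.2.2)

theorem s6g_venv_le_N (I : InitialData 𝓜 g) (hY : IsCotangent 𝓜 𝒴) (hy : y ∈ 𝒴.carrier)
    (hs : 0 < s) (hsT : s < T) : D.venv 𝒴 T y s ≤ D.N y s :=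
  (s6g_venv_le_vraw D I hY hy hs hsT).trans (s6g_vraw_le_N D hY hy hs hsT)

theorem s6g_venv_lsc (I : InitialData 𝓜 g) (hY : IsCotangent 𝓜 𝒴) (hy : y ∈ 𝒴.carrier)
    (hs : 0 < s) (hsT : s < T) :
    LowerSemicontinuousWithinAt (fun q : CotAmb V × ℝ => D.venv 𝒴 T q.1 q.2)
      (𝒴.carrier ×ˢ Set.Ioo 0 T) (y, s) :=
  s6g_liminf_lsc (f := fun q : CotAmb V × ℝ => D.vraw 𝒴 T q.1 q.2)
    (S := 𝒴.carrier ×ˢ Set.Ioo 0 T) (x := (y, s)) (s6env_vraw_nonneg D I hY) ⟨hy, hs, hsT⟩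

/-- fibre scaling as a homeomorphism of `Y × ℝ`. -/
noncomputable def s6env_scaleHomeo (V : Type) [NormedAddCommGroup V] [InnerProductSpace ℝ V]
    {c : ℂ} (hc : c ≠ 0) : (CotAmb V × ℝ) ≃ₜ (CotAmb V × ℝ) :=
  ((Homeomorph.refl V).prodCongr (Homeomorph.smulOfNeZero c hc)).prodCongr (Homeomorph.refl ℝ)

theorem s6env_scaleHomeo_apply {c : ℂ} (hc : c ≠ 0) (q : CotAmb V × ℝ) :
    s6env_scaleHomeo V hc q = (fscale c q.1, q.2) := rfl

theorem s6g_venv_fscale (I : InitialData 𝓜 g) (hY : IsCotangent 𝓜 𝒴) (hy : y ∈ 𝒴.carrier)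
    (hs : 0 < s) (hsT : s < T) (c : ℂ) :
    D.venv 𝒴 T (fscale c y) s = ‖c‖ ^ 2 * D.venv 𝒴 T y s := by
  by_cases hc : c = 0
  · subst hc
    have hy0 := s6g_fscale_mem hY 0 hy
    have h1 := s6g_N0_le_venv D I hY hy0 hs hsT
    have h2 := s6g_venv_le_N D I hY hy0 hs hsT
    rw [s6g_N_fscale] at h1 h2
    simp only [norm_zero, ne_eq, OfNat.ofNat_ne_zero, not_false_eq_true, zero_pow, zero_mul]
      at h1 h2 ⊢
    exact le_antisymm h2 h1
  · have h := s6g_liminf_scale (f := fun q : CotAmb V × ℝ => D.vraw 𝒴 T q.1 q.2)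
      (S := 𝒴.carrier ×ˢ Set.Ioo 0 T) (s6env_scaleHomeo V hc) (k := ‖c‖ ^ 2) (fun q => ?_)
      (by positivity) (fun q _ => ?_) (y, s)
    · exact h
    · rw [s6env_scaleHomeo_apply]
      constructor
      · rintro ⟨h1, h2⟩
        refine ⟨?_, h2⟩
        have h3 := s6g_fscale_mem hY c⁻¹ h1
        rwa [s6env_fscale_fscale, inv_mul_cancel₀ hc, s6env_fscale_one] at h3
      · rintro ⟨h1, h2⟩
        exact ⟨s6g_fscale_mem hY c h1, h2⟩
    · rw [s6env_scaleHomeo_apply]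
      exact s6g_vraw_fscale D hY hc T q.1 q.2

end Claimed.Agent.R316.S6
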