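import Claimed.Agent.R316.S6.GLoc

/-!
# S6-G7: the scalar gap `F₀`: invariance, bounds `0 ≤ F₀ ≤ ρ`, upper semicontinuity (leaf, ~700 lines)

The claimer owns this file: replace the `sorry`s IN PLACE, keep the statements (auxiliary lemmas: prefix `s6i_`; problems: msg helper126).

RECIPES.
* `isOpt_comp_linear`: `D ↦ Lᴴ D L` is a bijection from the positive definite feasible matrices of `w` onto those of `w ∘ L` (inverse `D' ↦ (L⁻¹)ᴴ D' L⁻¹`), `s6g_qf_conj`, `posDef_conjTranspose_mul_mul`, and `det (Lᴴ D L) = ‖det L‖² det D` (`det_re_conjTranspose_mul_mul`).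
* `F0c_invariant`: `Φ z = Ψ w`, `L = (J⁻¹)ᵀ` (`det L ≠ 0` by `s6g_trans`).  `vloc Φ t (cJoin z ξ) = vloc Ψ t (cJoin w (L ξ))` (`s6g_cotParam_trans`), so with an optimiser `B` of the `Ψ`-fibre function (`LocEnv.exists_opt`, `locEnv_of_chart`):
  `Lvol (vloc Φ) t z = log det (Lᴴ B L) = Lvol (vloc Ψ) t w + log ‖det L‖²` (`IsOpt.logVol_eq`, `logDet_conjTranspose_mul_mul`), and `log det (bmat Φ z) = log det (bmat Ψ w) + log ‖det L‖²` (`s6g_bmat_trans`).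
* `F0_chart`: `if_pos`, `s6g_scal_eq`.
* `F0_bounds`: `t = 0`: `F0 = 0`, `ρ ≥ 0` (`D.P_nonpos`).  `t > 0`: in the chosen chart (`s6g_pspec`) `LocEnv.Lvol_bounds`; `log det b_t - log det b_0 = log det g - log det h_t = - P` (`s6g_log_det_bmat`, `s6g_logdet_h`).
* `F0_usc`: at `(t₀, x₀)`, `t₀ > 0`: `Φ = 𝓜.pΦ x₀`; for `(t, x)` near `(t₀, x₀)` with `x ∈ 𝓜.carrier`: `x = Φ z`, `z = invFunOn Φ U x → z₀` (`s6g_tendsto_inv`, `s6g_eventually_mem_image`), `F0 t x = log det b (t, z) - Lvol (t, z)`: continuous minus lsc (`LocEnv.Lvol_lsc`, `s6g_contDiffOn_bmat` + `contDiffOn_logDet_of_posDef`).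
  At `(0, x₀)`: `F0 0 x₀ = 0`, `F0 ≤ ρ` and `ρ` is continuous on `Ici 0 ×ˢ carrier` with `ρ 0 x₀ = 0` (`s6g_rho_continuousOn`, `s6g_rho_zero`).
-/

set_option autoImplicit false
set_option linter.unusedSectionVars false
open scoped ContDiff ComplexOrder Topology
open Filter

namespace Claimed.Agent.R316.S6

open Claimed.Agent.R316 Claimed.Agent.R316.B13 Matrix

theorem isOpt_comp_linear {ι : Type} [Fintype ι] [DecidableEq ι] {w : CE ι → ℝ}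
    {B L : Matrix ι ι ℂ} (hL : L.det ≠ 0) (hB : IsOpt w B) :
    IsOpt (fun ξ : CE ι => w (WithLp.toLp 2 (L *ᵥ ξ))) (Lᴴ * B * L) := by
  have hunit : IsUnit L.det := isUnit_iff_ne_zero.2 hL
  have hLinv : (L⁻¹).det ≠ 0 := by
    intro h0
    have h1 : (L * L⁻¹).det = 1 := by rw [Matrix.mul_nonsing_inv L hunit, Matrix.det_one]
    rw [Matrix.det_mul, h0, mul_zero] at h1
    exact zero_ne_one h1
  refine ⟨posDef_conjTranspose_mul_mul hL hB.posDef, fun ξ => ?_, fun D' hD' hf' => ?_⟩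
  · rw [s6g_qf_conj]
    exact john_feas_apply hB.feas (L *ᵥ ξ)
  · have hDpos : ((L⁻¹)ᴴ * D' * L⁻¹).PosDef := posDef_conjTranspose_mul_mul hLinv hD'
    have hDfeas : Feas w ((L⁻¹)ᴴ * D' * L⁻¹) := by
      intro η
      rw [s6g_qf_conj]
      have h1 := hf' (WithLp.toLp 2 (L⁻¹ *ᵥ η))
      have h2 : L *ᵥ (L⁻¹ *ᵥ (η : ι → ℂ)) = η := by
        rw [Matrix.mulVec_mulVec, Matrix.mul_nonsing_inv L hunit, Matrix.one_mulVec]
      have h3 : w (WithLp.toLp 2 (L *ᵥ (L⁻¹ *ᵥ (η : ι → ℂ)))) = w η := by rw [h2]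
      rw [← h3]
      exact h1
    have h4 := hB.max _ hDpos hDfeas
    have h5 : D' = Lᴴ * ((L⁻¹)ᴴ * D' * L⁻¹) * L := by
      have e1 : Lᴴ * (L⁻¹)ᴴ = 1 := by
        rw [← Matrix.conjTranspose_mul, Matrix.nonsing_inv_mul L hunit, Matrix.conjTranspose_one]
      calc D' = (Lᴴ * (L⁻¹)ᴴ) * D' * (L⁻¹ * L) := by
            rw [e1, Matrix.nonsing_inv_mul L hunit, Matrix.one_mul, Matrix.mul_one]
        _ = Lᴴ * ((L⁻¹)ᴴ * D' * L⁻¹) * L := by simp only [Matrix.mul_assoc]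
    have e1 : D'.det.re = ‖L.det‖ ^ 2 * ((L⁻¹)ᴴ * D' * L⁻¹).det.re := by
      conv_lhs => rw [h5]
      exact det_re_conjTranspose_mul_mul _ _
    have e2 : (Lᴴ * B * L).det.re = ‖L.det‖ ^ 2 * B.det.re := det_re_conjTranspose_mul_mul L B
    rw [e1, e2]
    exact mul_le_mul_of_nonneg_left h4 (sq_nonneg _)

variable {V : Type} [NormedAddCommGroup V] [InnerProductSpace ℝ V] [FiniteDimensional ℝ V]
variable [MeasurableSpace V] [BorelSpace V]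
variable {n : ℕ} {𝓜 : CMfd V (Fin n)} {g : HFam V (Fin n)} {o : V}
variable (D : FlowData 𝓜 g o) {𝒴 : CMfd (CotAmb V) (Fin n ⊕ Fin n)}
variable {Φ : CE (Fin n) → V} {U : Set (CE (Fin n))} {T T' t : ℝ}

theorem F0c_invariant (I : InitialData 𝓜 g) (hY : IsCotangent 𝓜 𝒴) (hD : D.StDiscInequality 𝒴)
    (ht : 0 < t) (htT : t < T) : 𝓜.Invariant (F0c D 𝒴 T t) := by
  intro Φ Ψ U W hΦ hΨ z hz w hw h
  have hT : 0 < T := ht.trans htT
  have hJ : (jac (Function.invFunOn Ψ W ∘ Φ) z).det ≠ 0 := (s6g_trans hΦ hΨ hz hw h).2.2.1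
  set L : Matrix (Fin n) (Fin n) ℂ := ((jac (Function.invFunOn Ψ W ∘ Φ) z)⁻¹)ᵀ with hLdef
  have hL : L.det ≠ 0 := by
    rw [hLdef, Matrix.det_transpose]
    intro h0
    have h1 : (jac (Function.invFunOn Ψ W ∘ Φ) z * (jac (Function.invFunOn Ψ W ∘ Φ) z)⁻¹).det = 1 := by
      rw [Matrix.mul_nonsing_inv _ (isUnit_iff_ne_zero.2 hJ), Matrix.det_one]
    rw [Matrix.det_mul, h0, mul_zero] at h1
    exact zero_ne_one h1
  have hb : bmat (D.h t) Φ z = Lᴴ * bmat (D.h t) Ψ w * L :=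
    s6g_bmat_trans (s6g_h_metric D ht.le) hΦ hΨ hz hw h
  obtain ⟨B, hB⟩ := (locEnv_of_chart D I hY hD hT hΨ).exists_opt (s := t) (x := w) ⟨⟨ht, htT⟩, hw⟩
  have hfun : (fun ξ : CE (Fin n) => vloc D 𝒴 T Φ t (cJoin z ξ)) =
      fun ξ : CE (Fin n) => vloc D 𝒴 T Ψ t (cJoin w (WithLp.toLp 2 (L *ᵥ ξ))) := by
    funext ξ
    unfold vloc
    rw [s6g_cotParam_trans hΦ hΨ hz hw h ξ]
  have h1 : Lvol (vloc D 𝒴 T Φ) t z = Real.log (Lᴴ * B * L).det.re := by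
    unfold Lvol
    rw [hfun]
    exact (isOpt_comp_linear hL hB).logVol_eq
  have h2 : Lvol (vloc D 𝒴 T Ψ) t w = Real.log B.det.re := hB.logVol_eq
  unfold F0c
  rw [h1, h2, hb, logDet_conjTranspose_mul_mul hL
    (det_re_ne_zero_of_posDef (s6g_bmat_posDef (s6g_h_metric D ht.le) hΨ hw)),
    logDet_conjTranspose_mul_mul hL (det_re_ne_zero_of_posDef hB.posDef)]
  ring

theorem F0_chart (I : InitialData 𝓜 g) (hY : IsCotangent 𝓜 𝒴) (hD : D.StDiscInequality 𝒴)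
    (ht : 0 < t) (htT : t < T) (hΦ : 𝓜.IsHol Φ U) {z : CE (Fin n)} (hz : z ∈ U) :
    F0 D 𝒴 T t (Φ z) = F0c D 𝒴 T t Φ z := by
  unfold F0
  rw [if_pos ht]
  exact s6g_scal_eq (F0c_invariant D I hY hD ht htT) hΦ hz

theorem F0_bounds (I : InitialData 𝓜 g) (hY : IsCotangent 𝓜 𝒴) (hD : D.StDiscInequality 𝒴)
    (ht : 0 ≤ t) (htT : t < T) {x : V} (hx : x ∈ 𝓜.carrier) :
    0 ≤ F0 D 𝒴 T t x ∧ F0 D 𝒴 T t x ≤ D.rho t x := by
  rcases ht.eq_or_lt with h0 | hpos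
  · subst h0
    have e : F0 D 𝒴 T 0 x = 0 := by
      unfold F0
      rw [if_neg (lt_irrefl _)]
    rw [e]
    refine ⟨le_rfl, ?_⟩
    unfold FlowData.rho
    exact neg_nonneg.2 (D.P_nonpos 0 le_rfl x hx)
  · obtain ⟨hΦ, hz, hΦz⟩ := s6g_pspec hx
    have hg : IsMetric 𝓜 g := I.kahler.toIsMetric
    have e := F0_chart D I hY hD hpos htT hΦ hz
    rw [hΦz] at e
    have hb := (locEnv_of_chart D I hY hD (hpos.trans htT) hΦ).Lvol_bounds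
      (s := t) (x := 𝓜.co x) ⟨⟨hpos, htT⟩, hz⟩
    have h1 := s6g_log_det_bmat (s6g_h_metric D ht) hΦ hz
    have h2 := s6g_log_det_bmat hg hΦ hz
    have h3 := s6g_logdet_h D hg hx ht
    rw [e]
    unfold F0c FlowData.rho
    constructor
    · linarith [hb.2]
    · linarith [hb.1]

/-- the chart gap is upper semicontinuous at interior times. -/
theorem s6i_F0c_usc (I : InitialData 𝓜 g) (hY : IsCotangent 𝓜 𝒴) (hD : D.StDiscInequality 𝒴)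
    (ht : 0 < t) (htT : t < T) (hΦ : 𝓜.IsHol Φ U) {z : CE (Fin n)} (hz : z ∈ U) {y : ℝ}
    (hy : F0c D 𝒴 T t Φ z < y) :
    ∀ᶠ q : ℝ × CE (Fin n) in 𝓝 (t, z), F0c D 𝒴 T q.1 Φ q.2 < y := by
  have hg : IsMetric 𝓜 g := I.kahler.toIsMetric
  have hopen : IsOpen (Set.Ioi (0 : ℝ) ×ˢ U) := isOpen_Ioi.prod (𝓜.isParam hΦ).isOpen
  have hmem : ((t, z) : ℝ × CE (Fin n)) ∈ Set.Ioi (0 : ℝ) ×ˢ U := ⟨ht, hz⟩
  have hc : ContDiffOn ℝ ∞ (fun q : ℝ × CE (Fin n) => Real.log (bmat (D.h q.1) Φ q.2).det.re)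
      (Set.Ioi 0 ×ˢ U) :=
    contDiffOn_logDet_of_posDef (fun j k => s6g_contDiffOn_bmat D hg hΦ j k)
      (fun q hq => s6g_bmat_posDef (s6g_h_metric D (le_of_lt hq.1)) hΦ hq.2)
  have hcat : ContinuousAt (fun q : ℝ × CE (Fin n) => Real.log (bmat (D.h q.1) Φ q.2).det.re)
      (t, z) := hc.continuousOn.continuousAt (hopen.mem_nhds hmem)
  have hl := (locEnv_of_chart D I hY hD (ht.trans htT) hΦ).Lvol_lsc (s := t) (x := z)
    ⟨⟨ht, htT⟩, hz⟩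
  unfold F0c at hy
  set c₀ := Real.log (bmat (D.h t) Φ z).det.re with hc₀
  set l₀ := Lvol (vloc D 𝒴 T Φ) t z with hl₀
  have hε : 0 < (y - (c₀ - l₀)) / 2 := by linarith
  have h1 : ∀ᶠ q : ℝ × CE (Fin n) in 𝓝 (t, z),
      Real.log (bmat (D.h q.1) Φ q.2).det.re < c₀ + (y - (c₀ - l₀)) / 2 :=
    hcat.eventually_lt continuousAt_const (by show c₀ < _; linarith)
  have h2 : ∀ᶠ q : ℝ × CE (Fin n) in 𝓝 (t, z),
      l₀ - (y - (c₀ - l₀)) / 2 < Lvol (vloc D 𝒴 T Φ) q.1 q.2 :=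
    hl _ (by show _ < l₀; linarith)
  filter_upwards [h1, h2] with q hq1 hq2
  unfold F0c
  linarith

theorem F0_usc (I : InitialData 𝓜 g) (hY : IsCotangent 𝓜 𝒴) (hD : D.StDiscInequality 𝒴)
    (hT' : T' < T) :
    UpperSemicontinuousOn (fun p : ℝ × V => F0 D 𝒴 T p.1 p.2) (Set.Icc 0 T' ×ˢ 𝓜.carrier) := by
  rintro ⟨t₀, x₀⟩ ⟨⟨h0, hT0⟩, hx₀⟩ y hy
  have hg : IsMetric 𝓜 g := I.kahler.toIsMetric
  have hself : ∀ᶠ p : ℝ × V in 𝓝[Set.Icc 0 T' ×ˢ 𝓜.carrier] (t₀, x₀),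
      p ∈ Set.Icc 0 T' ×ˢ 𝓜.carrier := self_mem_nhdsWithin
  simp only at h0 hT0 hx₀ hy
  rcases h0.eq_or_lt with h00 | hpos
  · subst h00
    have e : F0 D 𝒴 T 0 x₀ = 0 := by
      unfold F0
      rw [if_neg (lt_irrefl _)]
    rw [e] at hy
    have hρ := (s6g_rho_continuousOn D) (0, x₀) ⟨Set.self_mem_Ici, hx₀⟩
    have hρ' : ∀ᶠ p : ℝ × V in 𝓝[Set.Ici 0 ×ˢ 𝓜.carrier] (0, x₀), D.rho p.1 p.2 < y := by
      refine hρ.eventually_lt tendsto_const_nhds ?_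
      show D.rho 0 x₀ < y
      rw [s6g_rho_zero D hg hx₀]
      exact hy
    have hρ'' : ∀ᶠ p : ℝ × V in 𝓝[Set.Icc 0 T' ×ˢ 𝓜.carrier] (0, x₀), D.rho p.1 p.2 < y :=
      hρ'.filter_mono (nhdsWithin_mono _ (Set.prod_mono Set.Icc_subset_Ici_self subset_rfl))
    filter_upwards [hρ'', hself] with p hp1 hp2
    exact lt_of_le_of_lt (F0_bounds D I hY hD hp2.1.1 (lt_of_le_of_lt hp2.1.2 hT') hp2.2).2 hp1
  · obtain ⟨hΦ, hz, hΦz⟩ := s6g_pspec hx₀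
    have htT : t₀ < T := lt_of_le_of_lt hT0 hT'
    have e := F0_chart D I hY hD hpos htT hΦ hz
    rw [hΦz] at e
    rw [e] at hy
    have h1 := s6i_F0c_usc D I hY hD hpos htT hΦ hz hy
    have hinv : Tendsto (Function.invFunOn (𝓜.pΦ x₀) (𝓜.pU x₀)) (𝓝[𝓜.carrier] x₀)
        (𝓝 (𝓜.co x₀)) := by
      have := s6g_tendsto_inv hΦ hz
      rwa [hΦz] at this
    have himg : ∀ᶠ x in 𝓝[𝓜.carrier] x₀, x ∈ 𝓜.pΦ x₀ '' 𝓜.pU x₀ := by
      have := s6g_eventually_mem_image hΦ hz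
      rwa [hΦz] at this
    have htend : Tendsto (fun p : ℝ × V => ((p.1, Function.invFunOn (𝓜.pΦ x₀) (𝓜.pU x₀) p.2) :
        ℝ × CE (Fin n))) (𝓝[Set.Icc 0 T' ×ˢ 𝓜.carrier] (t₀, x₀)) (𝓝 (t₀, 𝓜.co x₀)) := by
      rw [nhdsWithin_prod_eq, nhds_prod_eq]
      exact Filter.Tendsto.prodMap (tendsto_id.mono_left nhdsWithin_le_nhds) hinv
    have h2 := htend.eventually h1
    have h3 : ∀ᶠ p : ℝ × V in 𝓝[Set.Icc 0 T' ×ˢ 𝓜.carrier] (t₀, x₀),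
        p.2 ∈ 𝓜.pΦ x₀ '' 𝓜.pU x₀ := by
      rw [nhdsWithin_prod_eq]
      exact himg.prod_inr _
    have h4 : ∀ᶠ p : ℝ × V in 𝓝[Set.Icc 0 T' ×ˢ 𝓜.carrier] (t₀, x₀), 0 < p.1 := by
      have : ∀ᶠ p : ℝ × V in 𝓝 (t₀, x₀), 0 < p.1 :=
        continuous_fst.continuousAt.eventually (lt_mem_nhds hpos)
      exact this.filter_mono nhdsWithin_le_nhds
    filter_upwards [h2, h3, h4, hself] with p hp2 hp3 hp4 hp5
    have hm : Function.invFunOn (𝓜.pΦ x₀) (𝓜.pU x₀) p.2 ∈ 𝓜.pU x₀ := Function.invFunOn_mem hp3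
    have he : 𝓜.pΦ x₀ (Function.invFunOn (𝓜.pΦ x₀) (𝓜.pU x₀) p.2) = p.2 :=
      Function.invFunOn_eq hp3
    have e2 := F0_chart D I hY hD hp4 (lt_of_le_of_lt hp5.1.2 hT') hΦ hm
    rw [he] at e2
    show F0 D 𝒴 T p.1 p.2 < y
    rw [e2]
    exact hp2

end Claimed.Agent.R316.S6
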