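import Claimed.Agent.R316.S6.GEnv

/-!
# S6-G6: the envelope in a cotangent chart is a `LocEnv`; semicontinuity and bounds of `𝓛` (leaf, ~500 lines)

The claimer owns this file: replace the `sorry`s IN PLACE, keep the statements (auxiliary lemmas: prefix `s6l_`; problems: msg helper126).

RECIPES.
* `LocEnv.mono`: field by field.
* `LocEnv.Lvol_bounds`: `john_logVol_bounds` with `w = v s (cJoin x ·)`.
* `LocEnv.Lvol_lsc`: `john_logVol_lsc` with `X = ℝ × CE ι`, `v' q ξ = v q.1 (cJoin q.2 ξ)`; its `hlsc` is `H.lsc` composed with the continuous map `(q, ξ) ↦ (q.1, cJoin q.2 ξ)` (`LowerSemicontinuousAt.comp_continuousAt`…, `s6_continuous_cJoin`); the `∀ᶠ` hypotheses hold on the open `Ω`.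
* `LocEnv.eq_of_Lvol_eq`: `B` from `H.exists_opt`; `IsOpt.logVol_eq`, `IsOpt.le_upper` (`b - B ≥ 0`, so `b` is positive definite and `det b > 0`), `Real.log_injOn_pos`, `herm_eq_of_det_eq` give `B = b`; feasibility of `B` and `H.up`.
* `locEnv_of_chart`: `Ω = Ioo 0 T ×ˢ U`.  `lsc`: `s6g_venv_lsc` composed with `(s, p) ↦ (cotParam Φ p, s)`, continuous at the point (`s6g_continuousAt_cotParam`) and mapping a neighbourhood into `𝒴.carrier ×ˢ Ioo 0 T` (`s6g_cotParam_mem`, `s6g_isOpen_cotDom`);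
  `hom`: `s6g_cotParam_smul`, `s6g_venv_fscale`; `low`: `s6g_N0_le_venv`, `s6g_N_chart` at `t = 0`, `s6g_h_zero` (`nloc`, `cBase_cJoin`, `cFib (cJoin x ξ) = ξ`); `up`: `s6g_venv_le_N`, `s6g_N_chart`;
  `b_cont`: `s6g_contDiffOn_bmat` (entrywise continuity, `continuousOn_pi`); `disc`: `hD T Φ U hT hΦ φ s₀ p₀ …` is `DiscConcl φ s₀ p₀` by definition.
-/

set_option autoImplicit false
set_option linter.unusedSectionVars false
open scoped ContDiff ComplexOrder Topology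
open Filter

namespace Claimed.Agent.R316.S6

open Claimed.Agent.R316 Claimed.Agent.R316.B13 Matrix

section loc

variable {ι : Type} [Fintype ι] [DecidableEq ι]
variable {Ω Ω' : Set (ℝ × CE ι)} {v : ℝ → CE (ι ⊕ ι) → ℝ} {b₀ b : ℝ → CE ι → Matrix ι ι ℂ}

theorem LocEnv.mono (H : LocEnv Ω v b₀ b) (hΩo : IsOpen Ω') (hΩ' : Ω' ⊆ Ω) :
    LocEnv Ω' v b₀ b where
  isOpen := hΩo
  lsc := fun s p h => H.lsc s p (hΩ' h)
  hom := fun s x h => H.hom s x (hΩ' h)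
  b₀_pos := fun s x h => H.b₀_pos s x (hΩ' h)
  low := fun s x h => H.low s x (hΩ' h)
  b_herm := fun s x h => H.b_herm s x (hΩ' h)
  b_cont := H.b_cont.mono hΩ'
  up := fun s x h => H.up s x (hΩ' h)
  disc := fun φ s₀ p₀ h => H.disc φ s₀ p₀ (hΩ' h)

theorem LocEnv.Lvol_bounds (H : LocEnv Ω v b₀ b) {s : ℝ} {x : CE ι} (h : (s, x) ∈ Ω) :
    Real.log (b₀ s x).det.re ≤ Lvol v s x ∧ Lvol v s x ≤ Real.log (b s x).det.re :=
  john_logVol_bounds (H.b₀_pos s x h) (fun ξ => H.low s x h ξ) (H.b_herm s x h)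
    (fun ξ => H.up s x h ξ)

theorem LocEnv.Lvol_lsc (H : LocEnv Ω v b₀ b) {s : ℝ} {x : CE ι} (h : (s, x) ∈ Ω) :
    LowerSemicontinuousAt (fun q : ℝ × CE ι => Lvol v q.1 q.2) (s, x) := by
  have hev : ∀ᶠ q : ℝ × CE ι in 𝓝 (s, x), q ∈ Ω := H.isOpen.mem_nhds h
  refine john_logVol_lsc (X := ℝ × CE ι) (v := fun q ξ => v q.1 (cJoin q.2 ξ)) (x₀ := (s, x))
    (b₀ := b₀ s x) (b₁ := fun q => b q.1 q.2) (fun ξ => ?_) ?_ (H.b₀_pos s x h)
    (fun ξ => H.low s x h ξ) ?_ ?_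
  · have h1 := H.lsc s (cJoin x ξ) (by rw [cBase_cJoin]; exact h)
    have hc : Continuous fun q : (ℝ × CE ι) × CE ι =>
        ((q.1.1, cJoin q.1.2 q.2) : ℝ × CE (ι ⊕ ι)) :=
      (continuous_fst.comp continuous_fst).prodMk
        (s6_continuous_cJoin.comp ((continuous_snd.comp continuous_fst).prodMk continuous_snd))
    exact LowerSemicontinuousAt.comp (g := fun q : (ℝ × CE ι) × CE ι =>
        ((q.1.1, cJoin q.1.2 q.2) : ℝ × CE (ι ⊕ ι))) (x := ((s, x), ξ)) h1 hc.continuousAt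
  · filter_upwards [hev] with q hq
    exact H.hom q.1 q.2 hq
  · filter_upwards [hev] with q hq
    exact H.b_herm q.1 q.2 hq
  · filter_upwards [hev] with q hq
    exact H.up q.1 q.2 hq

/-- if the volumes agree the envelope is the upper norm. -/
theorem LocEnv.eq_of_Lvol_eq (H : LocEnv Ω v b₀ b) {s : ℝ} {x : CE ι} (h : (s, x) ∈ Ω)
    (heq : Lvol v s x = Real.log (b s x).det.re) (ξ : CE ι) : v s (cJoin x ξ) = qf (b s x) ξ := by
  obtain ⟨B, hB⟩ := H.exists_opt h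
  have hLv : Lvol v s x = Real.log B.det.re := hB.logVol_eq
  have hbB : (b s x - B).PosSemidef := hB.le_upper (H.b_herm s x h) (H.up s x h)
  have hbpos : (b s x).PosDef := by
    have h1 := hB.posDef.add_posSemidef hbB
    rwa [add_sub_cancel] at h1
  have hdB : 0 < B.det.re := herm_det_re_pos hB.posDef
  have hdb : 0 < (b s x).det.re := herm_det_re_pos hbpos
  have hdet : B.det.re = (b s x).det.re :=
    Real.log_injOn_pos (Set.mem_Ioi.2 hdB) (Set.mem_Ioi.2 hdb) (by rw [← hLv, heq])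
  have hBb : B = b s x := herm_eq_of_det_eq hB.posDef hbB hdet
  refine le_antisymm (H.up s x h ξ) ?_
  rw [← hBb]
  exact hB.feas ξ

end loc

variable {V : Type} [NormedAddCommGroup V] [InnerProductSpace ℝ V] [FiniteDimensional ℝ V]
variable [MeasurableSpace V] [BorelSpace V]
variable {n : ℕ} {𝓜 : CMfd V (Fin n)} {g : HFam V (Fin n)} {o : V}
variable (D : FlowData 𝓜 g o) {𝒴 : CMfd (CotAmb V) (Fin n ⊕ Fin n)}
variable {Φ : CE (Fin n) → V} {U : Set (CE (Fin n))}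

theorem s6l_cFib_cJoin {ι : Type} [Fintype ι] [DecidableEq ι] (x ξ : CE ι) :
    cFib (cJoin x ξ) = ξ := by
  funext j
  simp [cFib, cJoin]

theorem s6l_mem_cotDom {ι : Type} [Fintype ι] [DecidableEq ι] {U : Set (CE ι)} {x : CE ι}
    (hx : x ∈ U) (ξ : CE ι) : cJoin x ξ ∈ cotDom U := by
  show cBase (cJoin x ξ) ∈ U
  rw [cBase_cJoin]
  exact hx

theorem s6l_nloc_cJoin (h : HFam V (Fin n)) (Φ : CE (Fin n) → V) (x ξ : CE (Fin n)) :
    nloc h Φ (cJoin x ξ) = qf (bmat h Φ x) ξ := by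
  unfold nloc
  rw [cBase_cJoin, s6l_cFib_cJoin]

theorem s6l_vloc_lsc (I : InitialData 𝓜 g) (hY : IsCotangent 𝓜 𝒴) {T : ℝ}
    (hΦ : 𝓜.IsHol Φ U) {s : ℝ} {p : CE (Fin n ⊕ Fin n)} (hs : s ∈ Set.Ioo 0 T)
    (hp : p ∈ cotDom U) :
    LowerSemicontinuousAt (fun q : ℝ × CE (Fin n ⊕ Fin n) => vloc D 𝒴 T Φ q.1 q.2) (s, p) := by
  have h1 := s6g_venv_lsc D I hY (s6g_cotParam_mem hY hΦ hp) hs.1 hs.2
  have hopen : IsOpen (Set.Ioo 0 T ×ˢ cotDom U) :=
    isOpen_Ioo.prod (s6g_isOpen_cotDom (𝓜.isParam hΦ).isOpen)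
  have hc : ContinuousAt (fun q : ℝ × CE (Fin n ⊕ Fin n) => ((cotParam Φ q.2, q.1) : CotAmb V × ℝ))
      (s, p) := by
    have h2 : ContinuousAt (fun q : ℝ × CE (Fin n ⊕ Fin n) => cotParam Φ q.2) (s, p) :=
      ContinuousAt.comp (f := fun q : ℝ × CE (Fin n ⊕ Fin n) => q.2) (x := (s, p))
        (s6g_continuousAt_cotParam hY hΦ hp) continuousAt_snd
    exact h2.prodMk continuousAt_fst
  have hm : Set.MapsTo (fun q : ℝ × CE (Fin n ⊕ Fin n) => ((cotParam Φ q.2, q.1) : CotAmb V × ℝ))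
      (Set.Ioo 0 T ×ˢ cotDom U) (𝒴.carrier ×ˢ Set.Ioo 0 T) := fun q hq =>
    ⟨s6g_cotParam_mem hY hΦ hq.2, hq.1⟩
  have h3 := LowerSemicontinuousWithinAt.comp
    (g := fun q : ℝ × CE (Fin n ⊕ Fin n) => ((cotParam Φ q.2, q.1) : CotAmb V × ℝ))
    (x := (s, p)) h1 hc.continuousWithinAt hm
  intro y hy
  have h4 := h3 y hy
  rwa [hopen.nhdsWithin_eq ⟨hs, hp⟩] at h4

/-- **the envelope in a cotangent chart.** -/
theorem locEnv_of_chart (I : InitialData 𝓜 g) (hY : IsCotangent 𝓜 𝒴)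
    (hD : D.StDiscInequality 𝒴) {T : ℝ} (hT : 0 < T) (hΦ : 𝓜.IsHol Φ U) :
    LocEnv (Set.Ioo 0 T ×ˢ U) (vloc D 𝒴 T Φ) (fun _ z => bmat g Φ z)
      (fun s z => bmat (D.h s) Φ z) where
  isOpen := isOpen_Ioo.prod (𝓜.isParam hΦ).isOpen
  lsc := fun s p h => s6l_vloc_lsc D I hY hΦ h.1 h.2
  hom := fun s x h c ξ => by
    unfold vloc
    rw [s6g_cotParam_smul]
    exact s6g_venv_fscale D I hY (s6g_cotParam_mem hY hΦ (s6l_mem_cotDom h.2 ξ)) h.1.1 h.1.2 c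
  b₀_pos := fun s x h => s6g_bmat_posDef I.kahler.toIsMetric hΦ h.2
  low := fun s x h ξ => by
    have h1 := s6g_N0_le_venv D I hY (s6g_cotParam_mem hY hΦ (s6l_mem_cotDom h.2 ξ)) h.1.1 h.1.2
    rw [s6g_N_chart D hΦ (s6l_mem_cotDom h.2 ξ) le_rfl, s6l_nloc_cJoin] at h1
    have h2 : bmat (D.h 0) Φ x = bmat g Φ x := by
      unfold bmat
      rw [s6g_h_zero D hΦ h.2]
    rw [h2] at h1
    exact h1
  b_herm := fun s x h => (s6g_bmat_posDef (s6g_h_metric D h.1.1.le) hΦ h.2).isHermitian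
  b_cont := by
    refine continuousOn_pi.2 fun j => continuousOn_pi.2 fun k => ?_
    exact (s6g_contDiffOn_bmat D I.kahler.toIsMetric hΦ j k).continuousOn.mono
      (Set.prod_mono Set.Ioo_subset_Ioi_self subset_rfl)
  up := fun s x h ξ => by
    have h1 := s6g_venv_le_N D I hY (s6g_cotParam_mem hY hΦ (s6l_mem_cotDom h.2 ξ)) h.1.1 h.1.2
    rw [s6g_N_chart D hΦ (s6l_mem_cotDom h.2 ξ) h.1.1.le, s6l_nloc_cJoin] at h1
    exact h1
  disc := fun φ s₀ p₀ h hφ heq hle hpos =>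
    hD T Φ U hT hΦ φ s₀ p₀ h.1.1 h.1.2 h.2 hφ heq hle hpos

end Claimed.Agent.R316.S6
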