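import Claimed.Agent.R316.S6.GVisc

/-!
# S6-G9: Theorem 6.3 (`thm:joint-positivity`): `F₀ = 0`, `v = v^raw = N`, joint plurisubharmonicity (leaf, ~700 lines)

The claimer owns this file: replace the `sorry`s IN PLACE, keep the statements (auxiliary lemmas: prefix `s6m_`; problems: msg helper126).

RECIPES.
* `venv_eq_N`: `F0_chart`, `F0_eq_zero` give `Lvol = log det b`; `LocEnv.eq_of_Lvol_eq` for `locEnv_of_chart`; `cJoin_eta`, `s6g_N_chart`.
* `vraw_eq_N`: `venv ≤ vraw ≤ N` (`s6g_venv_le_vraw`, `s6g_vraw_le_N`).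
* `jointNorm_eq`: `s6g_N_chart` and unfolding (`nloc`, `bmat`, `cBase (pCot p) = pBase p`, `cFib (pCot p) = pFib p`).
* `jointNorm_submean`: the compact disc `{p + ζ Z : ‖ζ‖ ≤ 1}` lies in the open set `{pBase ∈ U}`: some `r > 1` works for `‖ζ‖ < r`.  `f ζ = cotParam Φ (pCot p + ζ • pCot Z)` (`s6g_disc_affine` for `𝒴`, `hY.isHol hΦ`), `w ζ = ζ * pLog Z`, `s = exp (2 Re (pLog p))`,
  `T = exp (2 (|Re (pLog p)| + ‖pLog Z‖)) + 1`; `s * exp (2 Re (w ζ)) = exp (2 Re (pLog (p + ζ • Z)))`; `s6g_vraw_le_cavg`, `vraw_eq_N`, `jointNorm_eq`.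
* `jointNorm_pshOn`: continuity from `jointNorm_contDiffOn`; `s6g_cavg_eq`; `intervalIntegral.integral_mono_on` (both integrands continuous).
* `joint_positivity`: `levi_posSemidef_of_pshOn` (CW-2b) on the open set `{p | pBase p ∈ U}`.
-/

set_option autoImplicit false
set_option linter.unusedSectionVars false
open scoped ContDiff ComplexOrder Topology
open Filter

namespace Claimed.Agent.R316.S6

open Claimed.Agent.R316 Claimed.Agent.R316.B13 Matrix

variable {V : Type} [NormedAddCommGroup V] [InnerProductSpace ℝ V] [FiniteDimensional ℝ V]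
variable [MeasurableSpace V] [BorelSpace V]
variable {n : ℕ} {𝓜 : CMfd V (Fin n)} {g : HFam V (Fin n)} {o : V}
variable (D : FlowData 𝓜 g o) {𝒴 : CMfd (CotAmb V) (Fin n ⊕ Fin n)}
variable {Φ : CE (Fin n) → V} {U : Set (CE (Fin n))} {T t : ℝ}

theorem F0_eq_zero (I : InitialData 𝓜 g) (hY : IsCotangent 𝓜 𝒴) (hD : D.StDiscInequality 𝒴)
    (hC : D.StComparison) (ht : 0 < t) (htT : t < T) {x : V} (hx : x ∈ 𝓜.carrier) :
    F0 D 𝒴 T t x = 0 := by
  have h1 : t < (t + T) / 2 := by linarith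
  have h2 : (t + T) / 2 < T := by linarith
  refine hC ((t + T) / 2) (F0 D 𝒴 T) (by linarith) (F0_usc D I hY hD h2) ?_
    (F0_visc D I hY hD h2.le) t ⟨ht.le, h1⟩ x hx
  intro t' ht' x' hx'
  exact F0_bounds D I hY hD ht'.1 (lt_of_le_of_lt ht'.2 h2) hx'

/-- `v = N` (second assertion of Theorem 6.3). -/
theorem venv_eq_N (I : InitialData 𝓜 g) (hY : IsCotangent 𝓜 𝒴) (hD : D.StDiscInequality 𝒴)
    (hC : D.StComparison) (ht : 0 < t) (htT : t < T) (hΦ : 𝓜.IsHol Φ U)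
    {p : CE (Fin n ⊕ Fin n)} (hp : p ∈ cotDom U) :
    D.venv 𝒴 T (cotParam Φ p) t = D.N (cotParam Φ p) t := by
  have hz : cBase p ∈ U := hp
  have hT : 0 < T := ht.trans htT
  have H := locEnv_of_chart D I hY hD hT hΦ
  have hx := s6g_mem_carrier hΦ hz
  have h1 := F0_chart D I hY hD ht htT hΦ hz
  rw [F0_eq_zero D I hY hD hC ht htT hx] at h1
  unfold F0c at h1
  have h2 : Lvol (vloc D 𝒴 T Φ) t (cBase p) = Real.log (bmat (D.h t) Φ (cBase p)).det.re := by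
    linarith
  have h3 := H.eq_of_Lvol_eq (s := t) (x := cBase p) ⟨⟨ht, htT⟩, hz⟩ h2 (cFibE p)
  rw [cJoin_eta] at h3
  rw [s6g_N_chart D hΦ hp ht.le]
  exact h3

theorem vraw_eq_N (I : InitialData 𝓜 g) (hY : IsCotangent 𝓜 𝒴) (hD : D.StDiscInequality 𝒴)
    (hC : D.StComparison) (ht : 0 < t) (htT : t < T) (hΦ : 𝓜.IsHol Φ U)
    {p : CE (Fin n ⊕ Fin n)} (hp : p ∈ cotDom U) :
    D.vraw 𝒴 T (cotParam Φ p) t = D.N (cotParam Φ p) t := by
  have hy := s6g_cotParam_mem hY hΦ hp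
  refine le_antisymm (s6g_vraw_le_N D hY hy ht htT) ?_
  rw [← venv_eq_N D I hY hD hC ht htT hΦ hp]
  exact s6g_venv_le_vraw D I hY hy ht htT

/-- the `Y`-part of a point of `ℂ^{(n+n)+1}`. -/
noncomputable def pCot (p : CE ((Fin n ⊕ Fin n) ⊕ Unit)) : CE (Fin n ⊕ Fin n) :=
  WithLp.toLp 2 fun a => p (Sum.inl a)

theorem jointNorm_eq (hΦ : 𝓜.IsHol Φ U) {p : CE ((Fin n ⊕ Fin n) ⊕ Unit)} (hp : pBase p ∈ U) :
    jointNorm D.h Φ p = D.N (cotParam Φ (pCot p)) (Real.exp (2 * (pLog p).re)) := by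
  have hp' : pCot p ∈ cotDom U := hp
  rw [s6g_N_chart D hΦ hp' (Real.exp_pos _).le]
  rfl

theorem isOpen_pBase_preimage (hU : IsOpen U) :
    IsOpen {p : CE ((Fin n ⊕ Fin n) ⊕ Unit) | pBase p ∈ U} :=
  fc_isOpen_pBase hU

theorem jointNorm_contDiffOn (I : InitialData 𝓜 g) (hΦ : 𝓜.IsHol Φ U) :
    ContDiffOn ℝ ∞ (jointNorm D.h Φ) {p | pBase p ∈ U} :=
  fc_jointNorm_contDiffOn D I.kahler.toIsMetric hΦ

theorem s6z_pCot_line (p Z : CE ((Fin n ⊕ Fin n) ⊕ Unit)) (ζ : ℂ) :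
    pCot (p + ζ • Z) = pCot p + ζ • pCot Z := rfl

theorem s6z_pLog_line (p Z : CE ((Fin n ⊕ Fin n) ⊕ Unit)) (ζ : ℂ) :
    pLog (p + ζ • Z) = pLog p + ζ * pLog Z := rfl

theorem s6z_cBase_pCot (p : CE ((Fin n ⊕ Fin n) ⊕ Unit)) : cBase (pCot p) = pBase p := rfl

/-- an open set containing the closed unit disc contains a larger disc. -/
theorem s6z_exists_radius {S : Set ℂ} (hS : IsOpen S) (h : ∀ ζ : ℂ, ‖ζ‖ ≤ 1 → ζ ∈ S) :
    ∃ r : ℝ, 1 < r ∧ ∀ ζ ∈ Metric.ball (0 : ℂ) r, ζ ∈ S := by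
  obtain ⟨δ, hδ, hsub⟩ := (isCompact_closedBall (0 : ℂ) 1).exists_thickening_subset_open hS
    (fun ζ hζ => h ζ (by simpa using hζ))
  rw [thickening_closedBall hδ zero_le_one] at hsub
  exact ⟨δ + 1, by linarith, fun ζ hζ => hsub hζ⟩

theorem jointNorm_submean (I : InitialData 𝓜 g) (hY : IsCotangent 𝓜 𝒴)
    (hD : D.StDiscInequality 𝒴) (hC : D.StComparison) (hΦ : 𝓜.IsHol Φ U)
    {p Z : CE ((Fin n ⊕ Fin n) ⊕ Unit)} (h : ∀ ζ : ℂ, ‖ζ‖ ≤ 1 → pBase (p + ζ • Z) ∈ U) :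
    jointNorm D.h Φ p ≤ cavg fun ζ => jointNorm D.h Φ (p + ζ • Z) := by
  have hUo : IsOpen U := (𝓜.isParam hΦ).isOpen
  have hline : Continuous fun ζ : ℂ => p + ζ • Z := by fun_prop
  obtain ⟨r, hr, hball⟩ := s6z_exists_radius
    (S := {ζ : ℂ | pBase (p + ζ • Z) ∈ U}) ((isOpen_pBase_preimage hUo).preimage hline) h
  have hp : pBase p ∈ U := by
    have := h 0 (by simp)
    simpa using this
  set s : ℝ := Real.exp (2 * (pLog p).re) with hs
  have hs0 : 0 < s := Real.exp_pos _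
  set T₀ : ℝ := Real.exp (2 * (|(pLog p).re| + ‖pLog Z‖)) + 1 with hT₀
  have hbound : ∀ ζ : ℂ, ‖ζ‖ ≤ 1 → s * Real.exp (2 * (ζ * pLog Z).re) < T₀ := by
    intro ζ hζ
    rw [hs, ← Real.exp_add, hT₀]
    have h1 : (ζ * pLog Z).re ≤ ‖pLog Z‖ := by
      refine (Complex.re_le_norm _).trans ?_
      rw [norm_mul]
      exact mul_le_of_le_one_left (norm_nonneg _) hζ
    have h2 : (pLog p).re ≤ |(pLog p).re| := le_abs_self _
    have h3 : Real.exp (2 * (pLog p).re + 2 * (ζ * pLog Z).re) ≤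
        Real.exp (2 * (|(pLog p).re| + ‖pLog Z‖)) := Real.exp_le_exp.2 (by linarith)
    linarith
  have hsT : s < T₀ := by
    have := hbound 0 (by simp)
    simpa using this
  have hcomp : IsCompetitor 𝒴 T₀ (cotParam Φ (pCot p)) s
      (fun ζ => cotParam Φ (pCot p + ζ • pCot Z)) (fun ζ => ζ * pLog Z) := by
    refine ⟨r, hr, s6g_disc_affine (hY.isHol hΦ) (fun ζ hζ => hball ζ hζ), ?_, ?_, ?_, ?_⟩
    · exact (differentiable_id.mul_const _).differentiableOn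
    · simp
    · simp
    · intro ζ hζ
      exact hbound ζ (by simpa using hζ)
  have h1 := s6g_vraw_le_cavg D hY hs0 hcomp
  rw [vraw_eq_N D I hY hD hC hs0 hsT hΦ (p := pCot p) hp, ← jointNorm_eq D hΦ hp] at h1
  refine h1.trans (le_of_eq (s6env_cavg_congr fun ζ hζ => ?_))
  rw [jointNorm_eq D hΦ (h ζ hζ.le), s6z_pCot_line, s6z_pLog_line, Complex.add_re, mul_add,
    Real.exp_add]

theorem jointNorm_pshOn (I : InitialData 𝓜 g) (hY : IsCotangent 𝓜 𝒴)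
    (hD : D.StDiscInequality 𝒴) (hC : D.StComparison) (hΦ : 𝓜.IsHol Φ U) :
    PshOn {p | pBase p ∈ U} (jointNorm D.h Φ) := by
  have hc : ContinuousOn (jointNorm D.h Φ) {p | pBase p ∈ U} :=
    (jointNorm_contDiffOn D I hΦ).continuousOn
  refine ⟨hc.upperSemicontinuousOn, fun z w hzw φ hφ hle => ?_⟩
  have h1 := jointNorm_submean D I hY hD hC hΦ hzw
  rw [s6g_cavg_eq] at h1
  refine h1.trans (mul_le_mul_of_nonneg_left ?_ (by positivity))
  have hcont : Continuous fun θ : ℝ =>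
      jointNorm D.h Φ (z + Complex.exp ((θ : ℂ) * Complex.I) • w) := by
    have hl : Continuous fun θ : ℝ => z + Complex.exp ((θ : ℂ) * Complex.I) • w := by fun_prop
    exact hc.comp_continuous hl fun θ => hzw _ (s6env_norm_exp θ).le
  exact intervalIntegral.integral_mono_on (by positivity) (hcont.intervalIntegrable _ _)
    (hφ.intervalIntegrable _ _) fun θ _ => hle θ

/-- **Theorem 6.3** (joint positivity). -/
theorem joint_positivity (I : InitialData 𝓜 g) (hY : IsCotangent 𝓜 𝒴)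
    (hD : D.StDiscInequality 𝒴) (hC : D.StComparison) : StJointPositivity D := by
  intro Φ U hΦ p hp
  exact levi_posSemidef_of_pshOn (isOpen_pBase_preimage (𝓜.isParam hΦ).isOpen)
    ((jointNorm_contDiffOn D I hΦ).of_le (by norm_cast))
    (jointNorm_pshOn D I hY hD hC hΦ) p hp

end Claimed.Agent.R316.S6
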