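import Claimed.Agent.R316.S6.GInv

/-!
# S6-G8: `F₀` is a viscosity subsolution of `∂_t v ≤ e^{-v} Δ v + (1 - e^{-v}) R` (`ell:scalar-gap-equation`) (leaf, ~600 lines)

The claimer owns this file: replace the `sorry` IN PLACE, keep the statement (auxiliary lemmas: prefix `s6v_`; problems: msg helper126).

RECIPE.  Let `φ, t₀, x₀` be as in `ViscSubNL`.  `Φ = 𝓜.pΦ x₀`, `U = 𝓜.pU x₀`, `z₀ = 𝓜.co x₀` (`s6g_pspec`), `Ω = Ioo 0 T' ×ˢ U`, `H = (locEnv_of_chart …).mono`, `haveI : Nonempty (Fin n) := ⟨⟨0, I.n_pos⟩⟩`.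
`ℓ s z = log det (bmat (D.h s) Φ z) = - log det (D.h s Φ z)` (`s6g_log_det_bmat`), `lam s z = ℓ s z - φ s (Φ z)`.
1. `lam` is smooth on `Ω` (`s6g_contDiffOn_bmat` + `contDiffOn_logDet_of_posDef`; `SmoothST` of `φ`).
2. `lam t₀ z₀ = Lvol … t₀ z₀`: `φ t₀ x₀ = F0 … = F0c … Φ z₀` (definition of `F0`, `CMfd.scal`, `if_pos`).
3. `lam ≤ Lvol` near `(t₀, z₀)`: pull the hypothesis back by `(s, z) ↦ (s, Φ z)` (continuous at the point, `s6g_continuousAt`), `s6g_mem_carrier`, `F0_chart`.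
4. `loc_ellipsoid`: `exp (-(ℓ - Lvol)) * tr (bᵀ levi (lam t₀) z₀) ≤ ∂_s lam`.  Here `ℓ - Lvol = F0 t₀ x₀`, `bᵀ = (D.h t₀ Φ z₀)⁻¹` (`s6g_transpose_bmat`),
   `levi (lam t₀) z₀ = ricF (D.h t₀) Φ z₀ - levi (φ t₀ ∘ Φ) z₀` (`levi_sub`, `levi_congr` with `s6g_log_det_bmat` on the open `U`, `levi_neg`, definition of `ricF`), so the trace is `scalCurv 𝓜 (D.h t₀) x₀ - lap 𝓜 (D.h t₀) (φ t₀) x₀`
   BY DEFINITION (`scalCurv`, `lap`, `tr`, `CMfd.scal`, `trF`, `ddc` all unfold in the chosen chart; `Matrix.mul_sub`, `Matrix.trace_sub`), and `scalCurv … = D.R t₀ x₀` (`D.R_eq`).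
5. `∂_s lam (·, z₀) = D.R t₀ x₀ - deriv (φ · x₀) t₀`: `ℓ s z₀ = - (D.P s x₀ + log det g)` for `s ≥ 0` (`s6g_logdet_h`), `D.P_t` (`HasDerivWithinAt.hasDerivAt` with `Ici_mem_nhds`), `φ · x₀` differentiable at `t₀` (from `SmoothST`, restrict to the line `s ↦ (s, z₀)`).
6. `e^{-F}(R - Δφ) ≤ R - ∂_t φ` is the claim.
-/

set_option autoImplicit false
set_option linter.unusedSectionVars false
open scoped ContDiff ComplexOrder Topology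
open Filter

namespace Claimed.Agent.R316.S6

open Claimed.Agent.R316 Claimed.Agent.R316.B13 Matrix

variable {V : Type} [NormedAddCommGroup V] [InnerProductSpace ℝ V] [FiniteDimensional ℝ V]
variable [MeasurableSpace V] [BorelSpace V]
variable {n : ℕ} {𝓜 : CMfd V (Fin n)} {g : HFam V (Fin n)} {o : V}
variable (D : FlowData 𝓜 g o) {𝒴 : CMfd (CotAmb V) (Fin n ⊕ Fin n)}

/-- `log det b` is smooth in a chart. -/
theorem s6v_contDiffOn_logdet (hg : IsMetric 𝓜 g) {Φ : CE (Fin n) → V} {U : Set (CE (Fin n))}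
    (hΦ : 𝓜.IsHol Φ U) :
    ContDiffOn ℝ ∞ (fun q : ℝ × CE (Fin n) => Real.log (bmat (D.h q.1) Φ q.2).det.re)
      (Set.Ioi 0 ×ˢ U) :=
  contDiffOn_logDet_of_posDef (fun j k => s6g_contDiffOn_bmat D hg hΦ j k)
    (fun _ hq => s6g_bmat_posDef (s6g_h_metric D (le_of_lt hq.1)) hΦ hq.2)

/-- the Levi form of `log det b_t` is the Ricci form. -/
theorem s6v_levi_logdet {Φ : CE (Fin n) → V} {U : Set (CE (Fin n))}
    (hΦ : 𝓜.IsHol Φ U) {t : ℝ} (ht : 0 ≤ t) {z : CE (Fin n)} (hz : z ∈ U) :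
    levi (fun w => Real.log (bmat (D.h t) Φ w).det.re) z = ricF (D.h t) Φ z := by
  have h1 : (fun w => Real.log (bmat (D.h t) Φ w).det.re) =ᶠ[𝓝 z]
      fun w => - Real.log (D.h t Φ w).det.re := by
    filter_upwards [(𝓜.isParam hΦ).isOpen.mem_nhds hz] with w hw
    exact s6g_log_det_bmat (s6g_h_metric D ht) hΦ hw
  rw [levi_congr h1, levi_neg]
  rfl

/-- the time derivative of `log det b_t` is the scalar curvature. -/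
theorem s6v_deriv_logdet (hg : IsMetric 𝓜 g) {x : V} (hx : x ∈ 𝓜.carrier) {t : ℝ} (ht : 0 < t) :
    HasDerivAt (fun s => Real.log (bmat (D.h s) (𝓜.pΦ x) (𝓜.co x)).det.re) (D.R t x) t := by
  have h1 : HasDerivAt (fun s => D.P s x) (- D.R t x) t :=
    (D.P_t t ht.le x hx).hasDerivAt (Ici_mem_nhds ht)
  have h2 : HasDerivAt (fun s => - (D.P s x + Real.log (g (𝓜.pΦ x) (𝓜.co x)).det.re))
      (D.R t x) t := by
    have h3 := (h1.add_const (Real.log (g (𝓜.pΦ x) (𝓜.co x)).det.re)).neg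
    rw [neg_neg] at h3
    exact h3
  refine h2.congr_of_eventuallyEq ?_
  filter_upwards [Ici_mem_nhds ht] with s hs
  rw [s6g_log_det_bmat (s6g_h_metric D hs) (𝓜.isHol_pΦ hx) (𝓜.co_mem hx),
    s6g_logdet_h D hg hx hs]

theorem F0_visc (I : InitialData 𝓜 g) (hY : IsCotangent 𝓜 𝒴) (hD : D.StDiscInequality 𝒴)
    {T T' : ℝ} (hT' : T' ≤ T) : D.ViscSubNL T' (F0 D 𝒴 T) := by
  intro φ t₀ x₀ ht₀ ht₀T hx₀ hφ heq hle
  have : Nonempty (Fin n) := ⟨⟨0, I.n_pos⟩⟩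
  have hg : IsMetric 𝓜 g := I.kahler.toIsMetric
  obtain ⟨hΦ, hz, hΦz⟩ := s6g_pspec hx₀
  have hUo : IsOpen (𝓜.pU x₀) := (𝓜.isParam hΦ).isOpen
  have htT : t₀ < T := lt_of_lt_of_le ht₀T hT'
  have hT : 0 < T := ht₀.trans htT
  have hΩo : IsOpen (Set.Ioo 0 T' ×ˢ 𝓜.pU x₀) := isOpen_Ioo.prod hUo
  have H := (locEnv_of_chart D I hY hD hT hΦ).mono hΩo
    (Set.prod_mono (Set.Ioo_subset_Ioo_right hT') subset_rfl)
  have h₀ : ((t₀, 𝓜.co x₀) : ℝ × CE (Fin n)) ∈ Set.Ioo 0 T' ×ˢ 𝓜.pU x₀ := ⟨⟨ht₀, ht₀T⟩, hz⟩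
  have hℓ := (s6v_contDiffOn_logdet D hg hΦ).mono
    (Set.prod_mono (s₁ := Set.Ioo (0 : ℝ) T') Set.Ioo_subset_Ioi_self (subset_refl (𝓜.pU x₀)))
  have hφc := hφ _ _ hΦ
  have hlam : ContDiffOn ℝ ∞ (fun q : ℝ × CE (Fin n) =>
      (fun (s : ℝ) (z : CE (Fin n)) =>
        Real.log (bmat (D.h s) (𝓜.pΦ x₀) z).det.re - φ s (𝓜.pΦ x₀ z)) q.1 q.2)
      (Set.Ioo 0 T' ×ˢ 𝓜.pU x₀) := hℓ.sub hφc
  have hF := F0_chart D I hY hD ht₀ htT hΦ hz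
  rw [hΦz] at hF
  have heq' : (fun (s : ℝ) (z : CE (Fin n)) =>
        Real.log (bmat (D.h s) (𝓜.pΦ x₀) z).det.re - φ s (𝓜.pΦ x₀ z)) t₀ (𝓜.co x₀) =
      Lvol (vloc D 𝒴 T (𝓜.pΦ x₀)) t₀ (𝓜.co x₀) := by
    show Real.log (bmat (D.h t₀) (𝓜.pΦ x₀) (𝓜.co x₀)).det.re - φ t₀ (𝓜.pΦ x₀ (𝓜.co x₀)) = _
    rw [hΦz, heq, hF]
    unfold F0c
    ring
  have hle' : ∀ᶠ q : ℝ × CE (Fin n) in 𝓝 (t₀, 𝓜.co x₀),
      (fun (s : ℝ) (z : CE (Fin n)) =>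
        Real.log (bmat (D.h s) (𝓜.pΦ x₀) z).det.re - φ s (𝓜.pΦ x₀ z)) q.1 q.2 ≤
      Lvol (vloc D 𝒴 T (𝓜.pΦ x₀)) q.1 q.2 := by
    have hc : ContinuousAt (fun q : ℝ × CE (Fin n) => ((q.1, 𝓜.pΦ x₀ q.2) : ℝ × V))
        (t₀, 𝓜.co x₀) :=
      continuousAt_fst.prodMk (ContinuousAt.comp (g := 𝓜.pΦ x₀) (f := Prod.snd)
        (x := ((t₀, 𝓜.co x₀) : ℝ × CE (Fin n))) (s6g_continuousAt hΦ hz) continuousAt_snd)
    have hle2 : ∀ᶠ p : ℝ × V in 𝓝 ((t₀, 𝓜.pΦ x₀ (𝓜.co x₀)) : ℝ × V),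
        p.2 ∈ 𝓜.carrier → F0 D 𝒴 T p.1 p.2 ≤ φ p.1 p.2 := by
      rw [hΦz]; exact hle
    have h1 := hc.eventually hle2
    filter_upwards [h1, hΩo.mem_nhds h₀] with q hq1 hq2
    have h2 := hq1 (s6g_mem_carrier hΦ hq2.2)
    have h3 := F0_chart D I hY hD hq2.1.1 (lt_of_lt_of_le hq2.1.2 hT') hΦ hq2.2
    rw [h3] at h2
    unfold F0c at h2
    show Real.log (bmat (D.h q.1) (𝓜.pΦ x₀) q.2).det.re - φ q.1 (𝓜.pΦ x₀ q.2) ≤ _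
    linarith
  have key := loc_ellipsoid (lam := fun (s : ℝ) (z : CE (Fin n)) =>
        Real.log (bmat (D.h s) (𝓜.pΦ x₀) z).det.re - φ s (𝓜.pΦ x₀ z)) H hlam h₀ heq' hle'
  -- the exponent
  have e1 : Real.log (bmat (D.h t₀) (𝓜.pΦ x₀) (𝓜.co x₀)).det.re -
      Lvol (vloc D 𝒴 T (𝓜.pΦ x₀)) t₀ (𝓜.co x₀) = F0 D 𝒴 T t₀ x₀ := by
    rw [hF]; rfl
  -- the Levi form
  have hℓat : ContDiffAt ℝ ∞ (fun q : ℝ × CE (Fin n) =>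
      Real.log (bmat (D.h q.1) (𝓜.pΦ x₀) q.2).det.re) (t₀, 𝓜.co x₀) :=
    hℓ.contDiffAt (hΩo.mem_nhds h₀)
  have hφat : ContDiffAt ℝ ∞ (fun q : ℝ × CE (Fin n) => φ q.1 (𝓜.pΦ x₀ q.2)) (t₀, 𝓜.co x₀) :=
    hφc.contDiffAt (hΩo.mem_nhds h₀)
  have e2 : levi (fun z : CE (Fin n) =>
        Real.log (bmat (D.h t₀) (𝓜.pΦ x₀) z).det.re - φ t₀ (𝓜.pΦ x₀ z)) (𝓜.co x₀) =
      ricF (D.h t₀) (𝓜.pΦ x₀) (𝓜.co x₀) - ddc (φ t₀) (𝓜.pΦ x₀) (𝓜.co x₀) := by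
    rw [levi_sub
      ((s6g_contDiffAt_slice (lam := fun s z => Real.log (bmat (D.h s) (𝓜.pΦ x₀) z).det.re)
        hℓat).of_le lv_two_le_infty)
      ((s6g_contDiffAt_slice (lam := fun s z => φ s (𝓜.pΦ x₀ z)) hφat).of_le lv_two_le_infty),
      s6v_levi_logdet D hΦ ht₀.le hz]
    rfl
  have e3 : ((bmat (D.h t₀) (𝓜.pΦ x₀) (𝓜.co x₀))ᵀ * levi (fun z : CE (Fin n) =>
        Real.log (bmat (D.h t₀) (𝓜.pΦ x₀) z).det.re - φ t₀ (𝓜.pΦ x₀ z)) (𝓜.co x₀)).trace.re =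
      D.R t₀ x₀ - lap 𝓜 (D.h t₀) (φ t₀) x₀ := by
    rw [e2, s6g_transpose_bmat, Matrix.mul_sub, Matrix.trace_sub, Complex.sub_re,
      D.R_eq t₀ ht₀.le x₀ hx₀]
    rfl
  -- the time derivative
  have hφd : DifferentiableAt ℝ (fun s => φ s x₀) t₀ := by
    have h1 : ContDiffAt ℝ ∞ (fun s : ℝ => φ s (𝓜.pΦ x₀ (𝓜.co x₀))) t₀ :=
      hφat.comp t₀ (contDiffAt_id.prodMk contDiffAt_const)
    rw [hΦz] at h1
    exact h1.differentiableAt (by simp)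
  have e4 : deriv (fun s => Real.log (bmat (D.h s) (𝓜.pΦ x₀) (𝓜.co x₀)).det.re -
      φ s (𝓜.pΦ x₀ (𝓜.co x₀))) t₀ = D.R t₀ x₀ - deriv (fun s => φ s x₀) t₀ := by
    rw [hΦz]
    exact ((s6v_deriv_logdet D hg hx₀ ht₀).sub hφd.hasDerivAt).deriv
  rw [e1, e3, e4] at key
  linarith

end Claimed.Agent.R316.S6
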